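import Vale.Agent.P028.SameWindow.Defs
import Vale.Agent.P028.NumberLemmas

noncomputable section

namespace Vale.Agent.P028

open Finset

namespace LoHi

/-- `1 ≤ p / (p - 1)`. -/
theorem one_le_ratio {p : ℕ} (hp : 2 ≤ p) : 1 ≤ ratio p := by
  have h : (2 : ℝ) ≤ p := by exact_mod_cast hp
  unfold ratio
  rw [one_le_div (by linarith)]
  linarith

theorem one_le_prod_ratio {s : Finset ℕ} {n : ℕ} (hs : s ⊆ n.primeFactors) :
    1 ≤ ∏ p ∈ s, ratio p :=
  Finset.one_le_prod fun _ hp => one_le_ratio (Nat.prime_of_mem_primeFactors (hs hp)).two_le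

theorem prod_ratio_mono {s t : Finset ℕ} (hst : s ⊆ t) (ht : ∀ p ∈ t, p.Prime) :
    ∏ p ∈ s, ratio p ≤ ∏ p ∈ t, ratio p :=
  Finset.prod_le_prod_of_subset_of_one_le hst
    (fun p hp => zero_le_one.trans (one_le_ratio (ht p (hst hp)).two_le))
    fun p hp _ => one_le_ratio (ht p hp).two_le

theorem prod_range_ratio : ∀ y : ℕ, ∏ i ∈ Finset.range y, ratio (i + 2) = (y : ℝ) + 1
  | 0 => by simp
  | y + 1 => by
    rw [Finset.prod_range_succ, prod_range_ratio y, ratio]
    push_cast
    rw [show (y : ℝ) + 2 - 1 = (y : ℝ) + 1 by ring]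
    field_simp
    ring

theorem prod_ratio_le_card_divisors (q : ℕ) (hq : 0 < q) :
    ∏ p ∈ q.primeFactors, ratio p ≤ (q.divisors.card : ℝ) := by
  refine le_trans (le_of_eq ?_) (div_totient_le_card_divisors q hq)
  have h : (Nat.totient q : ℝ) * ∏ p ∈ q.primeFactors, (p : ℝ)
      = (q : ℝ) * ∏ p ∈ q.primeFactors, ((p : ℝ) - 1) := by
    have := congrArg (fun x : ℕ => (x : ℝ)) (Nat.totient_mul_prod_primeFactors q)
    push_cast at this
    rw [this]
    congr 1
    refine Finset.prod_congr rfl fun p hp => ?_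
    rw [Nat.cast_sub (Nat.prime_of_mem_primeFactors hp).one_le]
    simp
  have hpos : (0 : ℝ) < ∏ p ∈ q.primeFactors, ((p : ℝ) - 1) := Finset.prod_pos fun p hp => by
    have : (2 : ℝ) ≤ p := by exact_mod_cast (Nat.prime_of_mem_primeFactors hp).two_le
    linarith
  unfold ratio
  rw [Finset.prod_div_distrib, div_eq_div_iff hpos.ne'
    (by exact_mod_cast (Nat.totient_pos.mpr hq).ne'), mul_comm, h]

/-- A linear congruence with invertible coefficient has exactly one solution. -/
theorem card_filter_dvd_linear {p B : ℕ} (hp : p.Prime) (hB : ¬ p ∣ B) (c : ℤ) :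
    ((Finset.range p).filter fun i : ℕ => (p : ℤ) ∣ (i : ℤ) * B + c).card = 1 := by
  haveI : Fact p.Prime := ⟨hp⟩
  have hB0 : (B : ZMod p) ≠ 0 := by rwa [Ne, ZMod.natCast_eq_zero_iff]
  have hiff : ∀ i : ℕ, ((p : ℤ) ∣ (i : ℤ) * B + c) ↔
      (i : ZMod p) = -(c : ZMod p) / (B : ZMod p) := by
    intro i
    rw [← ZMod.intCast_zmod_eq_zero_iff_dvd, eq_div_iff hB0, eq_neg_iff_add_eq_zero]
    push_cast
    rfl
  set x : ZMod p := -(c : ZMod p) / (B : ZMod p) with hx
  rw [Finset.card_eq_one]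
  refine ⟨x.val, ?_⟩
  ext i
  simp only [Finset.mem_filter, Finset.mem_range, hiff, Finset.mem_singleton]
  constructor
  · rintro ⟨hi, he⟩
    rw [← he, ZMod.val_natCast, Nat.mod_eq_of_lt hi]
  · rintro rfl
    exact ⟨ZMod.val_lt x, ZMod.natCast_zmod_val x⟩

theorem sum_inv_sub_one_mul_le (y : ℕ) (T : Finset ℕ) (hT : ∀ p ∈ T, 2 ≤ p ∧ p ≤ y) :
    ∑ p ∈ T, 1 / (((p : ℝ) - 1) * p) ≤ 1 := by
  have hsub : T ⊆ (Finset.range y).image fun i => i + 2 := fun p hp =>
    Finset.mem_image.mpr ⟨p - 2, Finset.mem_range.mpr (by have := hT p hp; omega),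
      by have := hT p hp; omega⟩
  refine (Finset.sum_le_sum_of_subset_of_nonneg hsub fun p hp _ => ?_).trans ?_
  · obtain ⟨i, -, rfl⟩ := Finset.mem_image.mp hp
    push_cast
    have : (0 : ℝ) ≤ i := Nat.cast_nonneg i
    exact div_nonneg zero_le_one (mul_nonneg (by linarith) (by linarith))
  rw [Finset.sum_image fun a _ b _ hab => by simpa using hab]
  calc ∑ i ∈ Finset.range y, 1 / ((((i + 2 : ℕ) : ℝ) - 1) * ((i + 2 : ℕ) : ℝ))
      = ∑ i ∈ Finset.range y, (1 / ((i : ℝ) + 1) - 1 / (((i + 1 : ℕ) : ℝ) + 1)) := by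
        refine Finset.sum_congr rfl fun i _ => ?_
        push_cast
        rw [show (i : ℝ) + 2 - 1 = (i : ℝ) + 1 by ring, show (i : ℝ) + 1 + 1 = (i : ℝ) + 2 by ring]
        field_simp
        ring
    _ = 1 / ((0 : ℝ) + 1) - 1 / ((y : ℝ) + 1) := by
        rw [Finset.sum_range_sub' (fun i : ℕ => 1 / ((i : ℝ) + 1)) y]
        simp
    _ ≤ 1 := by
        have : 0 ≤ 1 / ((y : ℝ) + 1) := by positivity
        norm_num
        linarith

end LoHi

open LoHi

theorem pFac_eq_lo_mul_hi (y B q r : ℕ) : pFac B q r = pLo y B q r * pHi y B q r := by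
  unfold pFac pLo pHi
  rw [← Finset.prod_filter_mul_prod_filter_not
    ((qd q r * qd r q).primeFactors.filter fun p => ¬ p ∣ B) (fun p => p ≤ y) ratio,
    Finset.filter_filter, Finset.filter_filter]
  simp only [not_le]

theorem wFac_eq_lo_mul_hi (y : ℕ) (A : ℤ) (B q r : ℕ) (n : ℤ) :
    wFac A B q r n = wLo y A B q r n * wHi y A B q r n := by
  unfold wFac wLo wHi
  rw [← Finset.prod_filter_mul_prod_filter_not ((Nat.gcd q r).primeFactors.filter fun p =>
      ¬ p ∣ qd q r * qd r q ∧ ¬ p ∣ B ∧ (p : ℤ) ∣ zform A B q r n) (fun p => p ≤ y) ratio,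
    Finset.filter_filter, Finset.filter_filter]
  congr 1
  · refine Finset.prod_congr (Finset.filter_congr fun p _ => ?_) fun _ _ => rfl
    tauto
  · refine Finset.prod_congr (Finset.filter_congr fun p _ => ?_) fun _ _ => rfl
    simp only [not_le]
    tauto

theorem one_le_factors (y : ℕ) (A : ℤ) (B q r : ℕ) (n : ℤ) :
    1 ≤ pLo y B q r ∧ 1 ≤ pHi y B q r ∧ 1 ≤ wLo y A B q r n ∧ 1 ≤ wHi y A B q r n := by
  exact ⟨one_le_prod_ratio (Finset.filter_subset _ _), one_le_prod_ratio (Finset.filter_subset _ _),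
    one_le_prod_ratio (Finset.filter_subset _ _), one_le_prod_ratio (Finset.filter_subset _ _)⟩

theorem pHi_le_hFac (y B q r : ℕ) : pHi y B q r ≤ hFac y (qd q r * qd r q) := by
  refine prod_ratio_mono (fun p hp => ?_) fun p hp => ?_
  · rw [Finset.mem_filter] at hp ⊢
    exact ⟨hp.1, hp.2.2⟩
  · exact Nat.prime_of_mem_primeFactors (Finset.mem_filter.mp hp).1

theorem lo_le (y : ℕ) (A : ℤ) (B q r : ℕ) (n : ℤ) :
    pLo y B q r * wLo y A B q r n ≤ (y : ℝ) + 1 := by
  unfold pLo wLo
  rw [← Finset.prod_union ?_]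
  · calc _ ≤ ∏ p ∈ ((Finset.range y).map (addRightEmbedding 2)).filter Nat.Prime, ratio p := by
          refine prod_ratio_mono (fun p hp => ?_) fun p hp => (Finset.mem_filter.mp hp).2
          obtain ⟨hpp, hpy⟩ : p.Prime ∧ p ≤ y := by
            rw [Finset.mem_union, Finset.mem_filter, Finset.mem_filter] at hp
            rcases hp with ⟨h1, -, h2⟩ | ⟨h1, -, -, h2, -⟩ <;>
              exact ⟨Nat.prime_of_mem_primeFactors h1, h2⟩
          rw [Finset.mem_filter, Finset.mem_map]
          refine ⟨⟨p - 2, Finset.mem_range.mpr (by have := hpp.two_le; omega), ?_⟩, hpp⟩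
          have := hpp.two_le
          simp only [addRightEmbedding_apply]
          omega
      _ ≤ ∏ p ∈ (Finset.range y).map (addRightEmbedding 2), ratio p := by
          refine Finset.prod_le_prod_of_subset_of_one_le (Finset.filter_subset _ _)
            (fun p hp => ?_) fun p hp _ => ?_
          · exact zero_le_one.trans (one_le_ratio (Finset.mem_filter.mp hp).2.two_le)
          · obtain ⟨i, -, rfl⟩ := Finset.mem_map.mp hp
            exact one_le_ratio (by simp)
      _ = (y : ℝ) + 1 := by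
          rw [Finset.prod_map]
          simp only [addRightEmbedding_apply]
          exact prod_range_ratio y
  · refine Finset.disjoint_left.mpr fun p hp hp' => ?_
    rw [Finset.mem_filter] at hp hp'
    exact hp'.2.1 (Nat.dvd_of_mem_primeFactors hp.1)

theorem crude_factor_le (A : ℤ) (B q r : ℕ) (n : ℤ) (hq : 0 < q) (hr : 0 < r) :
    pFac B q r * wFac A B q r n ≤ (q.divisors.card : ℝ) * r.divisors.card := by
  unfold pFac wFac
  rw [← Finset.prod_union ?_]
  · calc _ ≤ ∏ p ∈ q.primeFactors ∪ r.primeFactors, ratio p := by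
          refine prod_ratio_mono (fun p hp => ?_) fun p hp => ?_
          · rw [Finset.mem_union, Finset.mem_filter, Finset.mem_filter] at hp
            rw [Finset.mem_union]
            rcases hp with ⟨h1, -⟩ | ⟨h1, -⟩
            · have hpp := Nat.prime_of_mem_primeFactors h1
              rcases hpp.dvd_mul.mp (Nat.dvd_of_mem_primeFactors h1) with h | h
              · exact Or.inl (Nat.mem_primeFactors.mpr
                  ⟨hpp, h.trans (Nat.div_dvd_of_dvd (Nat.gcd_dvd_left q r)), hq.ne'⟩)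
              · exact Or.inr (Nat.mem_primeFactors.mpr
                  ⟨hpp, h.trans (Nat.div_dvd_of_dvd (Nat.gcd_dvd_left r q)), hr.ne'⟩)
            · exact Or.inl (Nat.mem_primeFactors.mpr ⟨Nat.prime_of_mem_primeFactors h1,
                (Nat.dvd_of_mem_primeFactors h1).trans (Nat.gcd_dvd_left q r), hq.ne'⟩)
          · rcases Finset.mem_union.mp hp with h | h <;> exact Nat.prime_of_mem_primeFactors h
      _ ≤ (∏ p ∈ q.primeFactors, ratio p) * ∏ p ∈ r.primeFactors, ratio p := by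
          rw [← Finset.prod_union_inter]
          exact le_mul_of_one_le_right
            (zero_le_one.trans (Finset.one_le_prod fun p hp => one_le_ratio (by
              rcases Finset.mem_union.mp hp with h | h <;>
                exact (Nat.prime_of_mem_primeFactors h).two_le)))
            (one_le_prod_ratio Finset.inter_subset_left)
      _ ≤ _ := by
          have hq0 : 0 ≤ ∏ p ∈ r.primeFactors, ratio p :=
            zero_le_one.trans (one_le_prod_ratio subset_rfl)
          exact mul_le_mul (prod_ratio_le_card_divisors q hq) (prod_ratio_le_card_divisors r hr) hq0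
            (Nat.cast_nonneg _)
  · refine Finset.disjoint_left.mpr fun p hp hp' => ?_
    rw [Finset.mem_filter] at hp hp'
    exact hp'.2.1 (Nat.dvd_of_mem_primeFactors hp.1)

/-- Periodic average of the small primes. -/
theorem exists_low_le :
    ∃ C : ℝ, ∀ (γ : ℝ) (ψ : ℕ → ℝ) (A : ℤ) (B q r y : ℕ), 0 < q → 0 < r → q ≠ r →
      IsCoprime A (B : ℤ) → 1 / 8 ≤ dist2 ψ q r → (4 : ℝ) ^ y ≤ 8 * dist2 ψ q r →
      ∑ n ∈ admSet γ ψ A B q r, pLo y B q r * wLo y A B q r n ≤ C * dist2 ψ q r := by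
  refine ⟨36 * Real.exp 1, fun γ ψ A B q r y _ _ _ _ hD hy => ?_⟩
  set m := mdiff q r with hm
  set D := dist2 ψ q r with hDdef
  set P1 := (qd q r * qd r q).primeFactors.filter (fun p => ¬ p ∣ B ∧ p ≤ y) with hP1
  set P2 := (Nat.gcd q r).primeFactors.filter
    (fun p => ¬ p ∣ qd q r * qd r q ∧ ¬ p ∣ B ∧ p ≤ y) with hP2
  set h : ℕ → ℕ → ℝ := fun p i =>
    if p ∈ P1 then (if (p : ℤ) ∣ (i : ℤ) * B + A * m then 0 else |ratio p|)
    else (if (p : ℤ) ∣ (i : ℤ) * B + A * m then |ratio p| else 1) with hh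
  have hdisj : Disjoint P1 P2 := Finset.disjoint_left.mpr fun p hp hp' => by
    rw [hP1, Finset.mem_filter] at hp
    rw [hP2, Finset.mem_filter] at hp'
    exact hp'.2.1 (Nat.dvd_of_mem_primeFactors hp.1)
  have hinfo : ∀ p ∈ P1 ∪ P2, p.Prime ∧ ¬ p ∣ B ∧ p ≤ y := by
    intro p hp
    rcases Finset.mem_union.mp hp with hp | hp
    · rw [hP1, Finset.mem_filter] at hp
      exact ⟨Nat.prime_of_mem_primeFactors hp.1, hp.2.1, hp.2.2⟩
    · rw [hP2, Finset.mem_filter] at hp
      exact ⟨Nat.prime_of_mem_primeFactors hp.1, hp.2.2.1, hp.2.2.2⟩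
  have hprime : ∀ p ∈ P1 ∪ P2, p.Prime := fun p hp => (hinfo p hp).1
  have h0 : ∀ p i, 0 ≤ h p i := by
    intro p i
    simp only [hh]
    split_ifs <;> first | exact le_rfl | exact abs_nonneg _ | exact zero_le_one
  -- the summand is the periodic product
  have hterm : ∀ n ∈ admSet γ ψ A B q r,
      pLo y B q r * wLo y A B q r n = ∏ p ∈ P1 ∪ P2, h p (n % (p : ℤ)).toNat := by
    intro n hn
    unfold admSet at hn
    rw [Finset.mem_filter] at hn
    have hdvd : ∀ p : ℕ, p.Prime →
        ((p : ℤ) ∣ ((n % (p : ℤ)).toNat : ℤ) * B + A * m ↔ (p : ℤ) ∣ zform A B q r n) := by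
      intro p hp
      rw [Int.toNat_of_nonneg (Int.emod_nonneg _ (by exact_mod_cast hp.ne_zero)), zform, ← hm]
      have hd : (p : ℤ) ∣ (n * B + A * m) - (n % (p : ℤ) * B + A * m) := by
        refine ⟨n / (p : ℤ) * B, ?_⟩
        have := Int.emod_add_mul_ediv n (p : ℤ)
        linear_combination (-(B : ℤ)) * this
      exact (dvd_iff_dvd_of_dvd_sub hd).symm
    rw [Finset.prod_union hdisj]
    congr 1
    · unfold pLo
      rw [← hP1]
      refine Finset.prod_congr rfl fun p hp => ?_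
      have hp' := hp
      rw [hP1, Finset.mem_filter] at hp'
      have hpp := Nat.prime_of_mem_primeFactors hp'.1
      simp only [hh]
      rw [if_pos hp, if_neg (fun hd => hn.2 p hp'.1 hp'.2.1 ((hdvd p hpp).mp hd)),
        abs_of_nonneg (zero_le_one.trans (one_le_ratio hpp.two_le))]
    · unfold wLo
      have e : ((Nat.gcd q r).primeFactors.filter fun p => ¬ p ∣ qd q r * qd r q ∧ ¬ p ∣ B ∧ p ≤ y ∧
          (p : ℤ) ∣ zform A B q r n) = P2.filter (fun p : ℕ => (p : ℤ) ∣ zform A B q r n) := by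
        rw [hP2, Finset.filter_filter]
        exact Finset.filter_congr fun p _ => by tauto
      rw [e, Finset.prod_filter]
      refine Finset.prod_congr rfl fun p hp => ?_
      have hp1 : p ∉ P1 := fun hc => Finset.disjoint_left.mp hdisj hc hp
      have hpp := hprime p (Finset.mem_union_right _ hp)
      simp only [hh]
      rw [if_neg hp1, abs_of_nonneg (zero_le_one.trans (one_le_ratio hpp.two_le))]
      exact if_congr (hdvd p hpp).symm rfl rfl
  -- the averages
  have havg : ∀ p ∈ P1 ∪ P2,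
      (∑ i ∈ Finset.range p, h p i) / p ≤ 1 + 1 / (((p : ℝ) - 1) * p) := by
    intro p hp
    obtain ⟨hpp, hpB, -⟩ := hinfo p hp
    have hcard := card_filter_dvd_linear hpp hpB (A * m)
    have hp2 : (2 : ℝ) ≤ p := by exact_mod_cast hpp.two_le
    have hr : |ratio p| = (p : ℝ) / ((p : ℝ) - 1) :=
      abs_of_nonneg (div_nonneg (by linarith) (by linarith))
    have hp1 : (0 : ℝ) < (p : ℝ) - 1 := by linarith
    have hnot : (((Finset.range p).filter fun i : ℕ => ¬ (p : ℤ) ∣ (i : ℤ) * B + A * m).card : ℝ)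
        = (p : ℝ) - 1 := by
      have h2 := Finset.card_filter_add_card_filter_not (s := Finset.range p)
        (fun i : ℕ => (p : ℤ) ∣ (i : ℤ) * B + A * m)
      rw [hcard, Finset.card_range] at h2
      have h3 : (1 : ℝ) + (((Finset.range p).filter
          fun i : ℕ => ¬ (p : ℤ) ∣ (i : ℤ) * B + A * m).card : ℝ) = p := by exact_mod_cast h2
      linarith
    by_cases hp1' : p ∈ P1
    · simp only [hh, if_pos hp1', Finset.sum_ite, Finset.sum_const, nsmul_eq_mul, mul_zero,
        zero_add, hnot, hr]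
      rw [mul_div_cancel₀ _ hp1.ne', div_self (by linarith)]
      linarith [show (0 : ℝ) ≤ 1 / (((p : ℝ) - 1) * p) by positivity]
    · simp only [hh, if_neg hp1', Finset.sum_ite, Finset.sum_const, nsmul_eq_mul, hcard, hnot, hr,
        Nat.cast_one, one_mul, mul_one]
      refine le_of_eq ?_
      field_simp
      ring
  have hprod : ∏ p ∈ P1 ∪ P2, ((∑ i ∈ Finset.range p, h p i) / p) ≤ Real.exp 1 := by
    calc ∏ p ∈ P1 ∪ P2, ((∑ i ∈ Finset.range p, h p i) / p)
        ≤ ∏ p ∈ P1 ∪ P2, Real.exp (1 / (((p : ℝ) - 1) * p)) := by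
          refine Finset.prod_le_prod
            (fun p _ => div_nonneg (Finset.sum_nonneg fun i _ => h0 p i) (Nat.cast_nonneg _))
            fun p hp => (havg p hp).trans ?_
          linarith [Real.add_one_le_exp (1 / (((p : ℝ) - 1) * p))]
      _ = Real.exp (∑ p ∈ P1 ∪ P2, 1 / (((p : ℝ) - 1) * p)) := (Real.exp_sum _ _).symm
      _ ≤ Real.exp 1 := Real.exp_le_exp.mpr (sum_inv_sub_one_mul_le y _ fun p hp =>
          ⟨(hinfo p hp).1.two_le, (hinfo p hp).2.2⟩)
  have hM : ∏ p ∈ P1 ∪ P2, (p : ℝ) ≤ 8 * D := by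
    refine le_trans ?_ hy
    have h1 : ∏ p ∈ P1 ∪ P2, p ≤ primorial y := by
      unfold primorial
      refine Finset.prod_le_prod_of_subset_of_one_le' ?_ fun p hp _ =>
        (Finset.mem_filter.mp hp).2.one_le
      intro p hp
      rw [Finset.mem_filter, Finset.mem_range]
      exact ⟨Nat.lt_succ_of_le (hinfo p hp).2.2, (hinfo p hp).1⟩
    have h2 : ((∏ p ∈ P1 ∪ P2, p : ℕ) : ℝ) ≤ ((4 ^ y : ℕ) : ℝ) :=
      Nat.cast_le.mpr (h1.trans (primorial_le_four_pow y))
    push_cast at h2
    exact h2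
  rw [Finset.sum_congr rfl hterm]
  set u : ℤ := ⌊-(γ * (m : ℝ)) - 2 * D⌋ with hu
  set v : ℤ := ⌈-(γ * (m : ℝ)) + 2 * D⌉ with hv
  have hsub : admSet γ ψ A B q r ⊆ Finset.Icc u v := fun n hn => by
    unfold admSet nearSet at hn
    rw [Finset.mem_filter, Finset.mem_filter] at hn
    exact hn.1.1
  refine (Finset.sum_le_sum_of_subset_of_nonneg hsub fun n _ _ =>
    Finset.prod_nonneg fun p _ => h0 p _).trans ?_
  refine (sum_Icc_prod_mod_le (P1 ∪ P2) hprime h h0 u v).trans ?_
  have hlen : max ((v : ℝ) - u + 1) 0 ≤ 4 * D + 3 := by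
    have h1 := Int.floor_le (-(γ * (m : ℝ)) - 2 * D)
    have h2 := Int.lt_floor_add_one (-(γ * (m : ℝ)) - 2 * D)
    have h3 := Int.ceil_lt_add_one (-(γ * (m : ℝ)) + 2 * D)
    rw [← hu] at h1 h2
    rw [← hv] at h3
    exact max_le (by linarith) (by linarith)
  calc _ ≤ (36 * D) * Real.exp 1 := by
        refine mul_le_mul (by linarith) hprod ?_ (by linarith)
        exact Finset.prod_nonneg fun p _ =>
          div_nonneg (Finset.sum_nonneg fun i _ => h0 p i) (Nat.cast_nonneg _)
    _ = _ := by ring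

end Vale.Agent.P028
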