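import Vale.Agent.P028.SameWindow.Defs
import Vale.Agent.P028.Gain
import Vale.Agent.P028.BilinearAux

/-!
Moments of the coincidence factor: the coincidences at a set `E` of primes are turned, by the
substitution `q = e q₁`, into the coincidences of a window to which the gain applies.
-/

noncomputable section

namespace Vale.Agent.P028

open Finset

namespace WMomentAux

theorem qd_mul {e : ℕ} (he : 0 < e) (a b : ℕ) : qd (e * a) (e * b) = qd a b := by
  rw [qd, qd, Nat.gcd_mul_left, Nat.mul_div_mul_left _ _ he]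

theorem wt_mul_le {ψ : ℕ → ℝ} {e a : ℕ} (he : 0 < e) (ha : 0 < a) (hψ : 0 ≤ ψ (e * a)) :
    wt ψ (e * a) ≤ (e : ℝ) * wt (fun q => ψ (e * q) / e) a ∧
      (Nat.totient e : ℝ) * wt (fun q => ψ (e * q) / e) a ≤ wt ψ (e * a) := by
  have he' : (0 : ℝ) < e := by exact_mod_cast he
  have ha' : (0 : ℝ) < a := by exact_mod_cast ha
  have h1 : (Nat.totient (e * a) : ℝ) ≤ e * Nat.totient a := by
    have h : Nat.totient (e * a) ≤ e * Nat.totient a := by
      have hh := Nat.totient_gcd_mul_totient_mul e a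
      have hg : 0 < Nat.totient (Nat.gcd e a) :=
        Nat.totient_pos.2 (Nat.gcd_pos_of_pos_left a he)
      have hge : Nat.totient e * Nat.gcd e a ≤ e * Nat.totient (Nat.gcd e a) := by
        have hd : Nat.gcd e a ∣ e := Nat.gcd_dvd_left e a
        have e1 := Nat.totient_mul_prod_primeFactors e
        have e2 := Nat.totient_mul_prod_primeFactors (Nat.gcd e a)
        have hsub : (Nat.gcd e a).primeFactors ⊆ e.primeFactors := Nat.primeFactors_mono hd he.ne'
        have key : (Nat.totient e : ℝ) / e ≤ (Nat.totient (Nat.gcd e a) : ℝ) / (Nat.gcd e a : ℕ) := by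
          rw [BilinearAux.totient_div_eq e he,
            BilinearAux.totient_div_eq _ (Nat.gcd_pos_of_pos_left a he), ← Finset.prod_sdiff hsub]
          refine mul_le_of_le_one_left (Finset.prod_nonneg fun p hp => ?_)
            (Finset.prod_le_one (fun p hp => ?_) fun p hp => sub_le_self _ (by positivity))
          all_goals
            rw [sub_nonneg]
            refine div_le_one_of_le₀ ?_ (Nat.cast_nonneg _)
          · exact_mod_cast Nat.pos_of_mem_primeFactors hp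
          · exact_mod_cast Nat.pos_of_mem_primeFactors (Finset.mem_sdiff.1 hp).1
        rw [div_le_div_iff₀ he' (by exact_mod_cast Nat.gcd_pos_of_pos_left a he)] at key
        have : ((Nat.totient e * Nat.gcd e a : ℕ) : ℝ) ≤
            ((e * Nat.totient (Nat.gcd e a) : ℕ) : ℝ) := by push_cast; linarith
        exact_mod_cast this
      refine Nat.le_of_mul_le_mul_left ?_ hg
      rw [hh]
      calc Nat.totient e * Nat.totient a * Nat.gcd e a
          = (Nat.totient e * Nat.gcd e a) * Nat.totient a := by ring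
        _ ≤ (e * Nat.totient (Nat.gcd e a)) * Nat.totient a := Nat.mul_le_mul_right _ hge
        _ = _ := by ring
    exact_mod_cast h
  have h2 : (Nat.totient e : ℝ) * Nat.totient a ≤ Nat.totient (e * a) := by
    exact_mod_cast Nat.totient_super_multiplicative e a
  simp only [wt]
  push_cast
  constructor
  · refine le_trans (mul_le_mul_of_nonneg_right (div_le_div_of_nonneg_right h1 (by positivity)) hψ)
      (le_of_eq ?_)
    field_simp
  · refine le_trans (le_of_eq ?_)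
      (mul_le_mul_of_nonneg_right (div_le_div_of_nonneg_right h2 (by positivity)) hψ)
    field_simp

theorem prod_two_bound {E : Finset ℕ} (hE : ∀ p ∈ E, p.Prime) :
    ((∏ p ∈ E, p : ℕ) : ℝ) ≤ (∏ _p ∈ E, (2 : ℝ)) * Nat.totient (∏ p ∈ E, p) := by
  set e := ∏ p ∈ E, p with he
  have he0 : 0 < e := Finset.prod_pos fun p hp => (hE p hp).pos
  have hpf : e.primeFactors = E := Nat.primeFactors_prod hE
  have h := BilinearAux.totient_div_eq e he0
  rw [hpf, div_eq_iff (by positivity)] at h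
  rw [h, ← mul_assoc, ← Finset.prod_mul_distrib]
  refine le_mul_of_one_le_left (Nat.cast_nonneg _) (Finset.one_le_prod fun p hp => ?_)
  have : (2 : ℝ) ≤ p := by exact_mod_cast (hE p hp).two_le
  have : 1 / (p : ℝ) ≤ 1 / 2 := one_div_le_one_div_of_le two_pos this
  linarith

theorem mem_admSet_sub {γ : ℝ} {ψ : ℕ → ℝ} {A A1 : ℤ} {B : ℕ} {c : ℤ} {e a b : ℕ} (he : 0 < e)
    (hA1 : A + c * B = (e : ℤ) * A1) {n n1 : ℤ} (hn : n ∈ admSet γ ψ A B (e * a) (e * b))
    (hn1 : n = (e : ℤ) * n1 + mdiff a b * c) :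
    n1 ∈ admSet ((γ + c) / e) (fun q => ψ (e * q) / e) A1 B a b := by
  have he' : (0 : ℝ) < e := by exact_mod_cast he
  have hm : mdiff (e * a) (e * b) = mdiff a b := by simp [mdiff, qd_mul he]
  have hD : dist2 (fun q => ψ (e * q) / e) a b = dist2 ψ (e * a) (e * b) / e := by
    simp only [dist2, qd_mul he, ← max_div_div_right he'.le, div_mul_eq_mul_div]
  obtain ⟨hn', hadm⟩ := Finset.mem_filter.1 hn
  have hnear := (Finset.mem_filter.1 hn').2
  rw [hm] at hnear
  have hnear1 : |(n1 : ℝ) + (γ + c) / e * mdiff a b| <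
      2 * dist2 (fun q => ψ (e * q) / e) a b := by
    have h2 : (n1 : ℝ) + (γ + c) / e * mdiff a b = ((n : ℝ) + γ * mdiff a b) / e := by
      rw [hn1]; push_cast; field_simp; ring
    rw [h2, hD, abs_div, abs_of_pos he', ← mul_div_assoc]
    exact div_lt_div_of_pos_right hnear he'
  refine Finset.mem_filter.2 ⟨Finset.mem_filter.2 ⟨Finset.mem_Icc.2 ?_, hnear1⟩, ?_⟩
  · obtain ⟨h1, h2⟩ := abs_lt.1 hnear1
    constructor
    · exact Int.le_of_lt_add_one (by
        have h3 := Int.floor_le (-((γ + c) / e * mdiff a b) -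
          2 * dist2 (fun q => ψ (e * q) / e) a b)
        exact_mod_cast (show ((⌊-((γ + c) / e * mdiff a b) -
          2 * dist2 (fun q => ψ (e * q) / e) a b⌋ : ℤ) : ℝ) < (n1 : ℝ) + 1 by linarith))
    · exact Int.le_of_lt_add_one (by
        have h3 := Int.le_ceil (-((γ + c) / e * mdiff a b) +
          2 * dist2 (fun q => ψ (e * q) / e) a b)
        exact_mod_cast (show (n1 : ℝ) < (⌈-((γ + c) / e * mdiff a b) +
          2 * dist2 (fun q => ψ (e * q) / e) a b⌉ : ℤ) + 1 by linarith))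
  · intro p hp hpB hdvd
    have hp' : p ∈ (qd (e * a) (e * b) * qd (e * b) (e * a)).primeFactors := by
      rwa [qd_mul he, qd_mul he]
    refine hadm p hp' hpB ?_
    have hz : zform A B (e * a) (e * b) n = (e : ℤ) * zform A1 B a b n1 := by
      simp only [zform, hm, hn1]
      linear_combination (mdiff a b) * hA1
    rw [hz]
    exact Dvd.dvd.mul_left hdvd _

/-- The coincidences at all primes of `E`. -/
theorem sum_card_sub_le {C : ℝ} (hC : 0 ≤ C) {ψ : ℕ → ℝ} {S : Finset ℕ} {γ : ℝ} {A : ℤ} {B : ℕ}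
    {ell L : ℝ} (hwin : Win ψ S γ A B ell L)
    (hgain : ∀ (ψ : ℕ → ℝ) (S : Finset ℕ) (γ : ℝ) (A : ℤ) (B : ℕ), Win ψ S γ A B ell L →
      ∀ x : ℝ, 0 < x → enSum γ ψ A B S x (2 * x) ≤ C * (mass ψ S + mass ψ S ^ 2) *
        (min 1 (x ^ (1 / 100 : ℝ)) + Real.exp (-(etaC / 4 * ell))))
    {x : ℝ} (hx : 0 < x) (y : ℕ) {E : Finset ℕ} (hE : ∀ p ∈ E, p.Prime) :
    ∑ q ∈ S, ∑ r ∈ S.filter (fun r => r ≠ q ∧ x < dist2 ψ q r ∧ dist2 ψ q r ≤ 2 * x),
        wt ψ q * wt ψ r / dist2 ψ q r * (((admSet γ ψ A B q r).filter (fun n =>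
          E ⊆ (Nat.gcd q r).primeFactors.filter (fun p => ¬ p ∣ qd q r * qd r q ∧ ¬ p ∣ B ∧
            y < p ∧ (p : ℤ) ∣ zform A B q r n))).card : ℝ) ≤
      C * (mass ψ S + mass ψ S ^ 2) * (∏ _p ∈ E, (2 : ℝ)) *
        ((x / ((∏ p ∈ E, p : ℕ) : ℝ)) ^ (1 / 100 : ℝ) + Real.exp (-(etaC / 4 * ell))) := by
  classical
  set e := ∏ p ∈ E, p with hedef
  have he : 0 < e := Finset.prod_pos fun p hp => (hE p hp).pos
  have he' : (0 : ℝ) < e := by exact_mod_cast he
  have hψS : ∀ q ∈ S, 0 ≤ wt ψ q := fun q hq =>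
    mul_nonneg (div_nonneg (Nat.cast_nonneg _) (Nat.cast_nonneg _)) (hwin.psi_pos q hq).le
  have hm : 0 ≤ mass ψ S := Finset.sum_nonneg hψS
  by_cases hB : ∃ p ∈ E, p ∣ B
  · obtain ⟨p, hp, hpB⟩ := hB
    have h2 : (0 : ℝ) ≤ ∏ _p ∈ E, (2 : ℝ) := by positivity
    refine le_trans (Finset.sum_nonpos fun q _ => Finset.sum_nonpos fun r _ => le_of_eq ?_)
      (by positivity)
    rw [Finset.filter_eq_empty_iff.2 (fun n _ hsub => (Finset.mem_filter.1 (hsub hp)).2.2.1 hpB)]
    simp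
  rw [not_exists] at hB
  have hcop : Nat.Coprime e B :=
    Nat.Coprime.prod_left fun p hp => (hE p hp).coprime_iff_not_dvd.2 fun h => hB p ⟨hp, h⟩
  obtain ⟨u, v, huv⟩ := Int.isCoprime_iff_gcd_eq_one.2 (by simpa using hcop :
    Int.gcd (e : ℤ) (B : ℤ) = 1)
  set c : ℤ := -A * v with hc
  set A1 : ℤ := A * u with hA1d
  have hA1 : A + c * B = (e : ℤ) * A1 := by rw [hc, hA1d]; linear_combination (-A) * huv
  set ψ1 : ℕ → ℝ := fun q => ψ (e * q) / e with hψ1
  set γ1 : ℝ := (γ + c) / e with hγ1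
  set T := S.filter (fun q => e ∣ q) with hT
  set S1 := T.image (fun q => q / e) with hS1
  have hmem : ∀ a ∈ S1, e * a ∈ S ∧ 0 < a := by
    intro a ha
    obtain ⟨q, hq, rfl⟩ := Finset.mem_image.1 ha
    obtain ⟨hqS, hqe⟩ := Finset.mem_filter.1 hq
    rw [Nat.mul_div_cancel' hqe]
    exact ⟨hqS, Nat.div_pos (Nat.le_of_dvd (hwin.pos_of_mem q hqS) hqe) he⟩
  have hle1 : ∀ {t : ℝ}, 0 ≤ t → t / e ≤ t := fun h => div_le_self h (by exact_mod_cast he)
  have hwin1 : Win ψ1 S1 γ1 A1 B ell L := by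
    refine ⟨hwin.one_le_L, hwin.L_le, fun a ha => (hmem a ha).2, fun a ha => ?_, fun a ha => ?_,
      fun a ha => ?_, hwin.B_pos, hwin.B_le, ?_, ?_, hwin.divisors_le⟩
    · refine le_trans ?_ (hwin.q_le _ (hmem a ha).1)
      exact_mod_cast Nat.le_mul_of_pos_left a he
    · exact div_pos (hwin.psi_pos _ (hmem a ha).1) he'
    · exact le_trans (hle1 (hwin.psi_pos _ (hmem a ha).1).le) (hwin.psi_le _ (hmem a ha).1)
    · refine le_trans (le_trans (le_of_eq ?_) (hle1 (abs_nonneg _))) hwin.delta_le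
      rw [show |(B : ℝ) * γ - A| / (e : ℝ) = |((B : ℝ) * γ - A) / e| by
        rw [abs_div, abs_of_pos he']]
      congr 1
      have h : (A : ℝ) + c * B = (e : ℝ) * A1 := by exact_mod_cast hA1
      rw [hγ1, eq_div_iff he'.ne', sub_mul, mul_assoc, div_mul_cancel₀ _ he'.ne']
      linarith
    · have h : IsCoprime (A + c * B) (B : ℤ) := hwin.coprime.add_mul_right_left c
      rw [hA1] at h
      exact h.of_mul_left_right
  have hcard : ∀ q ∈ S, ∀ r ∈ S, (¬ (e ∣ q ∧ e ∣ r) →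
      (admSet γ ψ A B q r).filter (fun n => E ⊆ (Nat.gcd q r).primeFactors.filter
        (fun p => ¬ p ∣ qd q r * qd r q ∧ ¬ p ∣ B ∧ y < p ∧ (p : ℤ) ∣ zform A B q r n)) = ∅) := by
    intro q hq r hr hne
    refine Finset.filter_eq_empty_iff.2 fun n _ hsub => hne ?_
    have hd : e ∣ Nat.gcd q r := (Finset.prod_dvd_prod_of_subset _ _ _
      (fun p hp => (Finset.mem_filter.1 (hsub hp)).1)).trans (Nat.prod_primeFactors_dvd _)
    exact ⟨hd.trans (Nat.gcd_dvd_left q r), hd.trans (Nat.gcd_dvd_right q r)⟩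
  have hrange : ∀ a b : ℕ, (x < dist2 ψ (e * a) (e * b) ∧ dist2 ψ (e * a) (e * b) ≤ 2 * x) ↔
      (x / e < dist2 ψ1 a b ∧ dist2 ψ1 a b ≤ 2 * (x / e)) := by
    intro a b
    have hD : dist2 ψ1 a b = dist2 ψ (e * a) (e * b) / e := by
      simp only [dist2, hψ1, qd_mul he, ← max_div_div_right he'.le, div_mul_eq_mul_div]
    rw [hD, div_lt_div_iff_of_pos_right he', ← mul_div_assoc, div_le_div_iff_of_pos_right he']
  -- restriction to multiples of `e`, and the substitution
  have hmain : ∑ q ∈ S, ∑ r ∈ S.filter (fun r => r ≠ q ∧ x < dist2 ψ q r ∧ dist2 ψ q r ≤ 2 * x),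
        wt ψ q * wt ψ r / dist2 ψ q r * (((admSet γ ψ A B q r).filter (fun n =>
          E ⊆ (Nat.gcd q r).primeFactors.filter (fun p => ¬ p ∣ qd q r * qd r q ∧ ¬ p ∣ B ∧
            y < p ∧ (p : ℤ) ∣ zform A B q r n))).card : ℝ) ≤
      (e : ℝ) * enSum γ1 ψ1 A1 B S1 (x / e) (2 * (x / e)) := by
    have hinj : Set.InjOn (fun q => q / e) T := by
      intro q hq q' hq' h
      simp only [hT, Finset.coe_filter, Set.mem_ofPred_eq] at hq hq'
      rw [← Nat.mul_div_cancel' hq.2, ← Nat.mul_div_cancel' hq'.2]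
      exact congrArg (e * ·) h
    have e1 : (e : ℝ) * enSum γ1 ψ1 A1 B S1 (x / e) (2 * (x / e)) =
        ∑ q ∈ T, ∑ r ∈ T, (if r / e ≠ q / e ∧ x / e < dist2 ψ1 (q / e) (r / e) ∧
          dist2 ψ1 (q / e) (r / e) ≤ 2 * (x / e) then (e : ℝ) *
            (wt ψ1 (q / e) * wt ψ1 (r / e) / dist2 ψ1 (q / e) (r / e) *
              ((admSet γ1 ψ1 A1 B (q / e) (r / e)).card : ℝ)) else 0) := by
      rw [enSum, Finset.mul_sum, hS1, Finset.sum_image hinj]
      refine Finset.sum_congr rfl fun q _ => ?_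
      rw [Finset.mul_sum, Finset.sum_filter, Finset.sum_image hinj]
    rw [e1, hT, Finset.sum_filter]
    refine Finset.sum_le_sum fun q hq => ?_
    rw [Finset.sum_filter]
    by_cases hqe : e ∣ q
    swap
    · rw [if_neg hqe]
      refine le_of_eq (Finset.sum_eq_zero fun r hr => ?_)
      rw [hcard q hq r hr fun h => hqe h.1]
      simp
    rw [if_pos hqe, Finset.sum_filter]
    refine Finset.sum_le_sum fun r hr => ?_
    by_cases hre : e ∣ r
    swap
    · rw [if_neg hre, hcard q hq r hr fun h => hre h.2]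
      simp
    rw [if_pos hre]
    obtain ⟨a, rfl⟩ := hqe
    obtain ⟨b, rfl⟩ := hre
    simp only [Nat.mul_div_cancel_left _ he]
    have ha : 0 < a := Nat.pos_of_mul_pos_left (hwin.pos_of_mem _ hq)
    have hb : 0 < b := Nat.pos_of_mul_pos_left (hwin.pos_of_mem _ hr)
    by_cases hcond : e * b ≠ e * a ∧ x < dist2 ψ (e * a) (e * b) ∧ dist2 ψ (e * a) (e * b) ≤ 2 * x
    swap
    · rw [if_neg hcond, if_neg fun h1 => hcond
        ⟨fun h => h1.1 (Nat.eq_of_mul_eq_mul_left he h), (hrange a b).2 h1.2⟩]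
    rw [if_pos hcond, if_pos ⟨fun h => hcond.1 (congrArg (e * ·) h), (hrange a b).1 hcond.2⟩]
    have hD : dist2 ψ1 a b = dist2 ψ (e * a) (e * b) / e := by
      simp only [dist2, hψ1, qd_mul he, ← max_div_div_right he'.le, div_mul_eq_mul_div]
    have hDpos : 0 < dist2 ψ (e * a) (e * b) := lt_trans hx hcond.2.1
    have w1 := wt_mul_le (ψ := ψ) he ha (hwin.psi_pos _ hq).le
    have w2 := wt_mul_le (ψ := ψ) he hb (hwin.psi_pos _ hr).le
    have hn : (((admSet γ ψ A B (e * a) (e * b)).filter (fun n =>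
          E ⊆ (Nat.gcd (e * a) (e * b)).primeFactors.filter (fun p =>
            ¬ p ∣ qd (e * a) (e * b) * qd (e * b) (e * a) ∧ ¬ p ∣ B ∧
            y < p ∧ (p : ℤ) ∣ zform A B (e * a) (e * b) n))).card : ℝ) ≤
        ((admSet γ1 ψ1 A1 B a b).card : ℝ) := by
      have hdvd : ∀ n : ℤ, E ⊆ (Nat.gcd (e * a) (e * b)).primeFactors.filter (fun p =>
            ¬ p ∣ qd (e * a) (e * b) * qd (e * b) (e * a) ∧ ¬ p ∣ B ∧
            y < p ∧ (p : ℤ) ∣ zform A B (e * a) (e * b) n) →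
          (e : ℤ) ∣ n - mdiff a b * c := by
        intro n hsub
        have h1 : (e : ℤ) ∣ zform A B (e * a) (e * b) n := by
          rw [Int.natCast_dvd]
          refine Finset.prod_primes_dvd _ (fun p hp => (hE p hp).prime) fun p hp => ?_
          rw [← Int.natCast_dvd]
          exact (Finset.mem_filter.1 (hsub hp)).2.2.2.2
        have h2 : zform A B (e * a) (e * b) n =
            (n - mdiff a b * c) * (B : ℤ) + (e : ℤ) * (A1 * mdiff a b) := by
          simp only [zform, mdiff, qd_mul he]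
          linear_combination ((qd b a : ℤ) - qd a b) * hA1
        rw [h2] at h1
        exact (show IsCoprime (e : ℤ) (B : ℤ) from ⟨u, v, huv⟩).dvd_of_dvd_mul_right
          ((Int.dvd_add_left (dvd_mul_right _ _)).1 h1)
      refine Nat.cast_le.2 (Finset.card_le_card_of_injOn
        (fun n => (n - mdiff a b * c) / (e : ℤ)) ?_ ?_)
      · intro n hn
        obtain ⟨hn1, hn2⟩ := Finset.mem_filter.1 hn
        exact mem_admSet_sub he hA1 hn1 (by rw [Int.mul_ediv_cancel' (hdvd n hn2)]; ring)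
      · intro n hn n' hn' h
        simp only [Finset.coe_filter, Set.mem_ofPred_eq] at hn hn'
        have h1 := Int.mul_ediv_cancel' (hdvd n hn.2)
        have h2 := Int.mul_ediv_cancel' (hdvd n' hn'.2)
        simp only [] at h
        rw [h] at h1
        linarith
    have hw0 : ∀ c : ℕ, e * c ∈ S → 0 ≤ wt ψ1 c := fun c hcS => mul_nonneg
      (div_nonneg (Nat.cast_nonneg _) (Nat.cast_nonneg _))
      (div_nonneg (hwin.psi_pos _ hcS).le he'.le)
    refine le_trans (mul_le_mul (div_le_div_of_nonneg_right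
      (mul_le_mul w1.1 w2.1 (hψS _ hr) (mul_nonneg he'.le (hw0 a hq))) hDpos.le) hn
      (Nat.cast_nonneg _) (div_nonneg (mul_nonneg (mul_nonneg he'.le (hw0 a hq))
        (mul_nonneg he'.le (hw0 b hr))) hDpos.le)) (le_of_eq ?_)
    rw [hD, ← hψ1]
    field_simp
  have hg := hgain ψ1 S1 γ1 A1 B hwin1 (x / e) (div_pos hx he')
  set μ1 := mass ψ1 S1 with hμ1
  set φe : ℝ := (Nat.totient e : ℝ) with hφe
  have hφ1 : 1 ≤ φe := by rw [hφe]; exact_mod_cast Nat.totient_pos.2 he
  have hμ0 : 0 ≤ μ1 := Finset.sum_nonneg fun a ha => mul_nonneg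
    (div_nonneg (Nat.cast_nonneg _) (Nat.cast_nonneg _)) (hwin1.psi_pos a ha).le
  have hμle : φe * μ1 ≤ mass ψ S := by
    rw [hμ1, mass, mass, Finset.mul_sum]
    refine le_trans (Finset.sum_le_sum fun a ha =>
      (wt_mul_le (ψ := ψ) he (hmem a ha).2 (hwin.psi_pos _ (hmem a ha).1).le).2) ?_
    rw [← Finset.sum_image (s := S1) (g := fun a => e * a)
      (fun a _ b _ h => Nat.eq_of_mul_eq_mul_left he h) (f := wt ψ)]
    exact Finset.sum_le_sum_of_subset_of_nonneg
      (Finset.image_subset_iff.2 fun a ha => (hmem a ha).1) fun q hq _ => hψS q hq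
  have hμsq : φe * μ1 ^ 2 ≤ mass ψ S ^ 2 := by
    refine le_trans ?_ (pow_le_pow_left₀ (by positivity) hμle 2)
    rw [mul_pow]
    exact mul_le_mul_of_nonneg_right (le_self_pow₀ hφ1 (by norm_num)) (sq_nonneg _)
  have h2 := prod_two_bound hE
  rw [← hedef] at h2
  set P2 : ℝ := ∏ _p ∈ E, (2 : ℝ) with hP2
  have hP20 : 0 ≤ P2 := by positivity
  have hlevel : min 1 ((x / e) ^ (1 / 100 : ℝ)) + Real.exp (-(etaC / 4 * ell)) ≤
      (x / e) ^ (1 / 100 : ℝ) + Real.exp (-(etaC / 4 * ell)) :=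
    add_le_add (min_le_right _ _) (le_refl _)
  have hkey : (e : ℝ) * (μ1 + μ1 ^ 2) ≤ P2 * (mass ψ S + mass ψ S ^ 2) :=
    calc (e : ℝ) * (μ1 + μ1 ^ 2) ≤ P2 * φe * (μ1 + μ1 ^ 2) :=
          mul_le_mul_of_nonneg_right h2 (by positivity)
      _ = P2 * (φe * μ1 + φe * μ1 ^ 2) := by ring
      _ ≤ _ := mul_le_mul_of_nonneg_left (add_le_add hμle hμsq) hP20
  calc _ ≤ (e : ℝ) * enSum γ1 ψ1 A1 B S1 (x / e) (2 * (x / e)) := hmain
    _ ≤ (e : ℝ) * (C * (μ1 + μ1 ^ 2) *
        ((x / e) ^ (1 / 100 : ℝ) + Real.exp (-(etaC / 4 * ell)))) :=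
      mul_le_mul_of_nonneg_left (le_trans hg (mul_le_mul_of_nonneg_left hlevel (by positivity)))
        he'.le
    _ = C * ((e : ℝ) * (μ1 + μ1 ^ 2)) *
        ((x / e) ^ (1 / 100 : ℝ) + Real.exp (-(etaC / 4 * ell))) := by ring
    _ ≤ C * (P2 * (mass ψ S + mass ψ S ^ 2)) *
        ((x / e) ^ (1 / 100 : ℝ) + Real.exp (-(etaC / 4 * ell))) :=
      mul_le_mul_of_nonneg_right (mul_le_mul_of_nonneg_left hkey hC) (by positivity)
    _ = _ := by ring

/-- The Euler products over the primes of the window. -/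
theorem exists_prime_products_le (Kc : ℝ) (hKc : 0 ≤ Kc) :
    ∃ C : ℝ, 0 ≤ C ∧ ∀ (y s : ℕ) (ell L : ℝ) (N : ℕ), (s : ℝ) ≤ Kc * (y + 1) → 1 ≤ ell → 1 ≤ L →
      L ≤ ell ^ 2 → (N : ℝ) ≤ Real.exp (2 * L) →
      ∏ p ∈ (Finset.range (N + 1)).filter (fun p => p.Prime ∧ y < p),
          (1 + (ratio p ^ s - 1) * 2 * ((p : ℝ) ^ (1 / 100 : ℝ))⁻¹) ≤
        Real.exp (C * ((y : ℝ) + 1) ^ (99 / 100 : ℝ)) ∧
      ∏ p ∈ (Finset.range (N + 1)).filter (fun p => p.Prime ∧ y < p),
          (1 + (ratio p ^ s - 1) * 2) ≤ Real.exp (C * ((y : ℝ) + 1) * (1 + Real.log ell)) := by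
  obtain ⟨Cm, hCm0, hCm⟩ := exists_prod_one_add_inv_prime_le
  set Cg := 4 * Kc * Real.exp (2 * Kc) with hCg
  set Ct : ℝ := 1 + 1 / ((101 / 100 : ℝ) - 1) with hCt
  have hCg0 : 0 ≤ Cg := by positivity
  have hCt0 : 0 ≤ Ct := by rw [hCt]; norm_num
  refine ⟨Cg * Ct + Cg * (3 * Cm + 2), by positivity, ?_⟩
  intro y s ell L N hs hell hL hLell hN
  set Pm := (Finset.range (N + 1)).filter (fun p => p.Prime ∧ y < p) with hPm
  have hg : ∀ p ∈ Pm, 0 ≤ ratio p ^ s - 1 ∧
      (ratio p ^ s - 1) * 2 ≤ Cg * (((y : ℝ) + 1) / p) := by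
    intro p hp
    obtain ⟨-, hpp, hyp⟩ := Finset.mem_filter.1 hp
    have h := (BilinearAux.wgt_sub_one_le (u := (s : ℝ)) hKc (Nat.cast_nonneg _) hs hpp hyp).1
    rw [BilinearAux.wgt, if_pos hyp, Real.rpow_natCast] at h
    refine ⟨sub_nonneg.2 (one_le_pow₀ (BilinearAux.one_le_ratio hpp)), ?_⟩
    rw [hCg]
    linarith
  have hy1 : (0 : ℝ) < (y : ℝ) + 1 := by positivity
  constructor
  · refine le_trans (Finset.prod_le_prod (fun p hp => add_nonneg zero_le_one
      (mul_nonneg (mul_nonneg (hg p hp).1 two_pos.le) (by positivity))) fun p _ =>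
      (add_comm _ _).trans_le (Real.add_one_le_exp _)) ?_
    rw [← Real.exp_sum, Real.exp_le_exp]
    calc ∑ p ∈ Pm, (ratio p ^ s - 1) * 2 * ((p : ℝ) ^ (1 / 100 : ℝ))⁻¹
        ≤ ∑ p ∈ Pm, Cg * ((((y : ℝ) + 1) / p) * ((p : ℝ) ^ (1 / 100 : ℝ))⁻¹) := by
          refine Finset.sum_le_sum fun p hp => ?_
          rw [← mul_assoc Cg]
          exact mul_le_mul_of_nonneg_right (hg p hp).2 (by positivity)
      _ = Cg * ((((y : ℝ) + 1) / ((y : ℝ) + 1) ^ (101 / 100 : ℝ)) *
            ∑ p ∈ Pm, (((y : ℝ) + 1) / p) ^ (101 / 100 : ℝ)) := by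
          rw [Finset.mul_sum, Finset.mul_sum]
          refine Finset.sum_congr rfl fun p hp => ?_
          have hp0 : (0 : ℝ) < p := by exact_mod_cast (Finset.mem_filter.1 hp).2.1.pos
          rw [Real.div_rpow hy1.le hp0.le,
            show (101 / 100 : ℝ) = 1 + 1 / 100 by norm_num, Real.rpow_add hp0, Real.rpow_one]
          field_simp
      _ ≤ Cg * ((((y : ℝ) + 1) / ((y : ℝ) + 1) ^ (101 / 100 : ℝ)) * (Ct * ((y : ℝ) + 1))) := by
          refine mul_le_mul_of_nonneg_left (mul_le_mul_of_nonneg_left ?_ (by positivity)) hCg0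
          refine BilinearAux.sum_tail_le (by norm_num) hy1 _ fun p hp => ?_
          obtain ⟨-, hpp, hyp⟩ := Finset.mem_filter.1 hp
          exact ⟨hpp.one_lt.le, by exact_mod_cast hyp⟩
      _ = Cg * Ct * ((y : ℝ) + 1) ^ (99 / 100 : ℝ) := by
          rw [show (99 / 100 : ℝ) = 1 + 1 - 101 / 100 by norm_num, Real.rpow_sub hy1,
            Real.rpow_add hy1, Real.rpow_one]
          ring
      _ ≤ _ := mul_le_mul_of_nonneg_right (le_add_of_nonneg_right (by positivity)) (by positivity)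
  · refine le_trans (Finset.prod_le_prod (fun p hp => add_nonneg zero_le_one
      (mul_nonneg (hg p hp).1 two_pos.le)) fun p _ =>
      (add_comm _ _).trans_le (Real.add_one_le_exp _)) ?_
    rw [← Real.exp_sum, Real.exp_le_exp]
    have hlog : 0 ≤ Real.log ell := Real.log_nonneg hell
    have hM : ∑ p ∈ (Finset.range (max N 3 + 1)).filter Nat.Prime, (1 : ℝ) / p ≤
        (3 * Cm + 2) * (1 + Real.log ell) := by
      refine le_trans (hCm (max N 3) (le_max_right _ _)) ?_
      have h3 : ((max N 3 : ℕ) : ℝ) ≤ Real.exp (2 * L) := by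
        rw [Nat.cast_max]
        refine max_le hN (le_trans ?_ (Real.add_one_le_exp _))
        push_cast; linarith
      have h1 : 1 ≤ Real.log (max N 3 : ℕ) := by
        rw [Real.le_log_iff_exp_le (by positivity)]
        have : (3 : ℝ) ≤ ((max N 3 : ℕ) : ℝ) := by exact_mod_cast le_max_right N 3
        linarith [Real.exp_one_lt_d9]
      have h2 : Real.log (Real.log (max N 3 : ℕ)) ≤ 1 + 2 * Real.log ell := by
        refine le_trans (Real.log_le_log (by linarith)
          ((Real.log_le_iff_le_exp (by positivity)).2 h3)) ?_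
        rw [Real.log_mul two_ne_zero (by linarith)]
        have := Real.log_le_log (by linarith) hLell
        rw [Real.log_pow] at this
        push_cast at this
        linarith [Real.log_le_sub_one_of_pos (show (0 : ℝ) < 2 by norm_num)]
      calc Cm * (1 + Real.log (Real.log (max N 3 : ℕ))) ≤ Cm * (2 + 2 * Real.log ell) :=
            mul_le_mul_of_nonneg_left (by linarith) hCm0
        _ ≤ _ := by nlinarith
    calc ∑ p ∈ Pm, (ratio p ^ s - 1) * 2
        ≤ ∑ p ∈ Pm, Cg * ((y : ℝ) + 1) * (1 / (p : ℝ)) := by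
          refine Finset.sum_le_sum fun p hp => le_trans (hg p hp).2 (le_of_eq ?_)
          ring
      _ ≤ Cg * ((y : ℝ) + 1) * ((3 * Cm + 2) * (1 + Real.log ell)) := by
          rw [← Finset.mul_sum]
          refine mul_le_mul_of_nonneg_left (le_trans
            (Finset.sum_le_sum_of_subset_of_nonneg ?_ fun p _ _ => by positivity) hM) (by positivity)
          intro p hp
          obtain ⟨h1, h2, -⟩ := Finset.mem_filter.1 hp
          exact Finset.mem_filter.2 ⟨Finset.mem_range.2 (by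
            have := Finset.mem_range.1 h1
            have := le_max_left N 3
            omega), h2⟩
      _ = (Cg * (3 * Cm + 2)) * ((y : ℝ) + 1) * (1 + Real.log ell) := by ring
      _ ≤ _ := mul_le_mul_of_nonneg_right (mul_le_mul_of_nonneg_right
          (le_add_of_nonneg_left (by positivity)) (by positivity)) (by linarith)

end WMomentAux

open WMomentAux

/-- Moments of the coincidence factor, from the gain applied to the substituted windows. -/
theorem exists_wMoment_le (Kc : ℝ) (hKc : 0 ≤ Kc) :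
    ∃ C ell0 : ℝ, ∀ (ψ : ℕ → ℝ) (S : Finset ℕ) (γ : ℝ) (A : ℤ) (B : ℕ) (ell L : ℝ),
      Win ψ S γ A B ell L → ell0 ≤ ell → ∀ x : ℝ, 0 < x → ∀ y s : ℕ,
      (s : ℝ) ≤ Kc * (y + 1) →
      ∑ q ∈ S, ∑ r ∈ S.filter (fun r => r ≠ q ∧ x < dist2 ψ q r ∧ dist2 ψ q r ≤ 2 * x),
          wt ψ q * wt ψ r / dist2 ψ q r *
            ∑ n ∈ admSet γ ψ A B q r, wHi y A B q r n ^ s ≤
        C * (mass ψ S + mass ψ S ^ 2) *
          (x ^ (1 / 100 : ℝ) * Real.exp (C * ((y : ℝ) + 1) ^ (99 / 100 : ℝ)) +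
            Real.exp (C * ((y : ℝ) + 1) * (1 + Real.log ell) - etaC / 4 * ell)) := by
  classical
  obtain ⟨Cg, l0, hgain⟩ := exists_gain_le
  obtain ⟨Cp, hCp0, hprod⟩ := exists_prime_products_le Kc hKc
  refine ⟨max Cg 0 + Cp, max l0 1, ?_⟩
  intro ψ S γ A B ell L hwin hell x hx y s hs
  have hell1 : 1 ≤ ell := le_trans (le_max_right _ _) hell
  have hm : 0 ≤ mass ψ S := Finset.sum_nonneg fun q hq =>
    mul_nonneg (div_nonneg (Nat.cast_nonneg _) (Nat.cast_nonneg _)) (hwin.psi_pos q hq).le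
  set N := ⌊Real.exp (2 * L)⌋₊ with hN
  set Pm := (Finset.range (N + 1)).filter (fun p => p.Prime ∧ y < p) with hPm
  have hPp : ∀ p ∈ Pm, p.Prime := fun p hp => (Finset.mem_filter.1 hp).2.1
  set G : ℕ → ℕ → ℤ → Finset ℕ := fun q r n => (Nat.gcd q r).primeFactors.filter
    (fun p => ¬ p ∣ qd q r * qd r q ∧ ¬ p ∣ B ∧ y < p ∧ (p : ℤ) ∣ zform A B q r n) with hG
  set g : ℕ → ℝ := fun p => ratio p ^ s - 1 with hg
  have hg0 : ∀ p ∈ Pm, 0 ≤ g p := fun p hp =>
    sub_nonneg.2 (one_le_pow₀ (BilinearAux.one_le_ratio (hPp p hp)))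
  have hexp : ∀ q ∈ S, ∀ r : ℕ, ∀ n : ℤ, wHi y A B q r n ^ s =
      ∑ E ∈ Pm.powerset, if E ⊆ G q r n then ∏ p ∈ E, g p else 0 := by
    intro q hq r n
    have hsub : G q r n ⊆ Pm := by
      intro p hp
      obtain ⟨h1, -, -, h2, -⟩ := Finset.mem_filter.1 hp
      refine Finset.mem_filter.2
        ⟨Finset.mem_range.2 ?_, Nat.prime_of_mem_primeFactors h1, h2⟩
      refine Nat.lt_succ_of_le (le_trans (Nat.le_of_mem_primeFactors h1) (Nat.le_floor ?_))
      refine le_trans ?_ (hwin.q_le q hq)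
      exact_mod_cast Nat.le_of_dvd (hwin.pos_of_mem q hq) (Nat.gcd_dvd_left q r)
    rw [← Finset.sum_filter, show Pm.powerset.filter (fun E => E ⊆ G q r n) = (G q r n).powerset by
      ext E; simp only [Finset.mem_filter, Finset.mem_powerset]
      exact ⟨fun h => h.2, fun h => ⟨h.trans hsub, h⟩⟩, ← Finset.prod_one_add, wHi,
      ← Finset.prod_pow]
    exact Finset.prod_congr rfl fun p _ => by simp [hg]
  set M : Finset ℕ → ℝ := fun E => ∑ q ∈ S,
    ∑ r ∈ S.filter (fun r => r ≠ q ∧ x < dist2 ψ q r ∧ dist2 ψ q r ≤ 2 * x),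
      wt ψ q * wt ψ r / dist2 ψ q r *
        (((admSet γ ψ A B q r).filter (fun n => E ⊆ G q r n)).card : ℝ) with hM
  have hswap : ∑ q ∈ S, ∑ r ∈ S.filter (fun r => r ≠ q ∧ x < dist2 ψ q r ∧ dist2 ψ q r ≤ 2 * x),
      wt ψ q * wt ψ r / dist2 ψ q r * ∑ n ∈ admSet γ ψ A B q r, wHi y A B q r n ^ s =
      ∑ E ∈ Pm.powerset, (∏ p ∈ E, g p) * M E := by
    simp only [hM, Finset.mul_sum]
    rw [Finset.sum_comm (s := Pm.powerset)]
    refine Finset.sum_congr rfl fun q hq => ?_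
    rw [Finset.sum_comm (s := Pm.powerset)]
    refine Finset.sum_congr rfl fun r _ => ?_
    rw [Finset.sum_congr rfl fun n _ => by rw [hexp q hq r n, Finset.mul_sum], Finset.sum_comm]
    refine Finset.sum_congr rfl fun E _ => ?_
    rw [← Finset.mul_sum, ← Finset.sum_filter, Finset.sum_const, nsmul_eq_mul]
    ring
  set a := x ^ (1 / 100 : ℝ) with ha
  set b := Real.exp (-(etaC / 4 * ell)) with hb
  set C0 := max Cg 0 * (mass ψ S + mass ψ S ^ 2) with hC0
  have hC00 : 0 ≤ C0 := by positivity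
  obtain ⟨hp1, hp2⟩ := hprod y s ell L N hs hell1 hwin.one_le_L hwin.L_le
    (Nat.floor_le (Real.exp_pos _).le)
  have hsplit : ∑ E ∈ Pm.powerset, (∏ p ∈ E, g p) * M E ≤
      C0 * (a * ∏ p ∈ Pm, (1 + g p * 2 * ((p : ℝ) ^ (1 / 100 : ℝ))⁻¹) +
        b * ∏ p ∈ Pm, (1 + g p * 2)) := by
    rw [Finset.prod_one_add, Finset.prod_one_add, Finset.mul_sum, Finset.mul_sum,
      ← Finset.sum_add_distrib, Finset.mul_sum]
    refine Finset.sum_le_sum fun E hE => ?_
    have hE' := Finset.mem_powerset.1 hE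
    have hpE : ∀ p ∈ E, p.Prime := fun p hp => hPp p (hE' hp)
    have hME := sum_card_sub_le (le_max_right Cg 0) hwin
      (fun ψ' S' γ' A' B' hw x' hx' => le_trans (hgain ψ' S' γ' A' B' ell L hw
        (le_trans (le_max_left _ _) hell) x' hx') (by
          have : 0 ≤ mass ψ' S' := Finset.sum_nonneg fun q hq =>
            mul_nonneg (div_nonneg (Nat.cast_nonneg _) (Nat.cast_nonneg _)) (hw.psi_pos q hq).le
          gcongr
          exact le_max_left _ _)) hx y hpE
    refine le_trans (mul_le_mul_of_nonneg_left hME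
      (Finset.prod_nonneg fun p hp => hg0 p (hE' hp))) (le_of_eq ?_)
    have e1 : (x / ((∏ p ∈ E, p : ℕ) : ℝ)) ^ (1 / 100 : ℝ) =
        a * ∏ p ∈ E, ((p : ℝ) ^ (1 / 100 : ℝ))⁻¹ := by
      rw [ha, Real.div_rpow hx.le (Nat.cast_nonneg _), Nat.cast_prod,
        ← Real.finsetProd_rpow _ _ (fun p _ => Nat.cast_nonneg _), Finset.prod_inv_distrib,
        div_eq_mul_inv]
    rw [e1, Finset.prod_mul_distrib, Finset.prod_mul_distrib, hC0, ← hb]
    ring
  rw [hswap]
  refine le_trans hsplit ?_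
  have hy : 0 ≤ ((y : ℝ) + 1) ^ (99 / 100 : ℝ) := by positivity
  have hl : 0 ≤ 1 + Real.log ell := by linarith [Real.log_nonneg hell1]
  calc C0 * (a * ∏ p ∈ Pm, (1 + g p * 2 * ((p : ℝ) ^ (1 / 100 : ℝ))⁻¹) +
        b * ∏ p ∈ Pm, (1 + g p * 2))
      ≤ C0 * (a * Real.exp (Cp * ((y : ℝ) + 1) ^ (99 / 100 : ℝ)) +
        b * Real.exp (Cp * ((y : ℝ) + 1) * (1 + Real.log ell))) := by
        have ha0 : 0 ≤ a := by positivity
        exact mul_le_mul_of_nonneg_left (add_le_add (mul_le_mul_of_nonneg_left hp1 ha0)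
          (mul_le_mul_of_nonneg_left hp2 (Real.exp_pos _).le)) hC00
    _ ≤ _ := by
        rw [hC0]
        refine mul_le_mul (mul_le_mul_of_nonneg_right (le_add_of_nonneg_right hCp0) (by positivity))
          ?_ (by positivity) (by positivity)
        refine add_le_add (mul_le_mul_of_nonneg_left (Real.exp_le_exp.2
          (mul_le_mul_of_nonneg_right (le_add_of_nonneg_left (le_max_right _ _)) hy))
            (by positivity)) ?_
        rw [hb, ← Real.exp_add, Real.exp_le_exp]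
        have := mul_le_mul_of_nonneg_right (mul_le_mul_of_nonneg_right
          (le_add_of_nonneg_left (a := Cp) (le_max_right Cg 0))
          (show (0 : ℝ) ≤ (y : ℝ) + 1 by positivity)) hl
        linarith

end Vale.Agent.P028
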