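import Vale.Agent.P028.SameWindow.Defs
import Vale.Agent.P028.SameWindow.Factors
import Vale.Agent.P028.SameWindow.WMoment
import Vale.Agent.P028.Bilinear

/-!
Levels `D ≍ x ≥ 1 / 8`: the primes up to `y ≍ log x` are averaged periodically, the larger primes
are handled by high moments.
-/

noncomputable section

namespace Vale.Agent.P028

open Finset

/-- The small primes times the large ones: either the large factor is at most `e`, or its high
moment pays for everything. -/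
theorem big_split_le (y : ℕ) (A : ℤ) (B q r : ℕ) (n : ℤ) :
    pFac B q r * wFac A B q r n ≤ 3 * (pLo y B q r * wLo y A B q r n) +
      ((y : ℝ) + 1) * Real.exp (-(6 * ((y : ℝ) + 1))) *
        (hFac y (qd q r * qd r q) ^ (2 * (6 * (y + 1) + 1)) +
          wHi y A B q r n ^ (2 * (6 * (y + 1) + 1))) := by
  obtain ⟨h1, h2, h3, h4⟩ := one_le_factors y A B q r n
  rw [pFac_eq_lo_mul_hi y, wFac_eq_lo_mul_hi y]
  set a := pLo y B q r
  set b := pHi y B q r with hb
  set c := wLo y A B q r n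
  set d := wHi y A B q r n
  set h := hFac y (qd q r * qd r q)
  have hbh : b ≤ h := hb ▸ pHi_le_hFac y B q r
  have hac : a * c ≤ (y : ℝ) + 1 := lo_le y A B q r n
  have hy : (0 : ℝ) ≤ ((y : ℝ) + 1) * Real.exp (-(6 * ((y : ℝ) + 1))) := by positivity
  have hpow : ∀ m : ℕ, 0 ≤ h ^ m + d ^ m := fun m =>
    add_nonneg (pow_nonneg (by linarith) m) (pow_nonneg (by linarith) m)
  rw [show a * b * (c * d) = (a * c) * (b * d) by ring]
  have hac1 : 1 ≤ a * c := one_le_mul_of_one_le_of_one_le h1 h3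
  by_cases hsmall : b * d ≤ 3
  · have := mul_le_mul_of_nonneg_left hsmall (show 0 ≤ a * c by linarith)
    nlinarith [mul_nonneg hy (hpow (2 * (6 * (y + 1) + 1)))]
  rw [not_le] at hsmall
  -- `b d ≤ e ^ (-s) (b d) ^ (s + 1)`
  set s := 6 * (y + 1) with hs
  have hexp : Real.exp (6 * ((y : ℝ) + 1)) ≤ (b * d) ^ s := by
    rw [show (6 : ℝ) * ((y : ℝ) + 1) = ((s : ℕ) : ℝ) * 1 by rw [hs]; push_cast; ring,
      Real.exp_nat_mul]
    exact pow_le_pow_left₀ (Real.exp_pos 1).le (by linarith [Real.exp_one_lt_three]) s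
  have key : b * d ≤ Real.exp (-(6 * ((y : ℝ) + 1))) * (b * d) ^ (s + 1) := by
    rw [Real.exp_neg, ← div_eq_inv_mul, le_div_iff₀ (Real.exp_pos _), pow_succ']
    exact mul_le_mul_of_nonneg_left hexp (by linarith)
  have hsum : (b * d) ^ (s + 1) ≤ h ^ (2 * (s + 1)) + d ^ (2 * (s + 1)) := by
    refine (pow_le_pow_left₀ (by nlinarith) (mul_le_mul_of_nonneg_right hbh (by linarith)) _).trans
      ?_
    rw [mul_pow, pow_mul', pow_mul']
    nlinarith [sq_nonneg (h ^ (s + 1) - d ^ (s + 1)), pow_nonneg (by linarith : 0 ≤ h) (s + 1),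
      pow_nonneg (by linarith : 0 ≤ d) (s + 1)]
  have h3' : 0 ≤ 3 * (a * c) := by linarith
  calc a * c * (b * d) ≤ ((y : ℝ) + 1) * (b * d) := mul_le_mul_of_nonneg_right hac (by nlinarith)
    _ ≤ ((y : ℝ) + 1) * (Real.exp (-(6 * ((y : ℝ) + 1))) *
          (h ^ (2 * (s + 1)) + d ^ (2 * (s + 1)))) :=
        mul_le_mul_of_nonneg_left (key.trans (mul_le_mul_of_nonneg_left hsum (Real.exp_pos _).le))
          (by positivity)
    _ ≤ _ := by linarith

/-- `C z ^ (99/100) ≤ z + C ^ 100`. -/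
theorem big_rpow_le {C z : ℝ} (hC : 0 ≤ C) (hz : 0 ≤ z) :
    C * z ^ (99 / 100 : ℝ) ≤ z + C ^ 100 := by
  have h := Real.geom_mean_le_arith_mean2_weighted (show (0 : ℝ) ≤ 1 / 100 by norm_num)
    (show (0 : ℝ) ≤ 99 / 100 by norm_num) (pow_nonneg hC 100) hz (by norm_num)
  rw [show ((C ^ 100 : ℝ) ^ (1 / 100 : ℝ)) = C by
    rw [← Real.rpow_natCast, ← Real.rpow_mul hC]; norm_num] at h
  have := pow_nonneg hC 100
  linarith

/-- The numerical inequalities at a level `x ≤ 4 ^ z`. -/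
theorem big_numeric {C z x : ℝ} (hC : 0 ≤ C) (hz : 1 ≤ z) (hx : 0 < x) (hxz : Real.log x ≤ 2 * z) :
    z * Real.exp (-(6 * z)) * (2 * x) ^ (993 / 1000 : ℝ) ≤ x ^ (-(1 / 100) : ℝ) ∧
    z * Real.exp (-(6 * z)) * (x ^ (1 / 100 : ℝ) * Real.exp (C * z ^ (99 / 100 : ℝ))) ≤
      Real.exp (C ^ 100) * x ^ (-(1 / 100) : ℝ) ∧
    z * Real.exp (-(6 * z)) ≤ x ^ (-(1 / 100) : ℝ) := by
  have hzexp : z ≤ Real.exp z := by linarith [Real.add_one_le_exp z]
  have hmain : ∀ e : ℝ, e ≤ -(1 / 100) * Real.log x + 5 * z →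
      z * Real.exp (-(6 * z)) * Real.exp e ≤ x ^ (-(1 / 100) : ℝ) := by
    intro e he
    rw [Real.rpow_def_of_pos hx, mul_assoc, ← Real.exp_add]
    refine (mul_le_mul_of_nonneg_right hzexp (Real.exp_pos _).le).trans ?_
    rw [← Real.exp_add]
    exact Real.exp_le_exp.2 (by linarith)
  refine ⟨?_, ?_, ?_⟩
  · rw [Real.rpow_def_of_pos (by linarith : 0 < 2 * x), Real.log_mul two_ne_zero hx.ne']
    refine hmain _ ?_
    have := Real.log_two_lt_d9
    have : (0 : ℝ) ≤ Real.log 2 := Real.log_nonneg (by norm_num)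
    nlinarith
  · have h := hmain (1 / 100 * Real.log x + z) (by linarith)
    have hexp : Real.exp (C * z ^ (99 / 100 : ℝ)) ≤ Real.exp (C ^ 100) * Real.exp z := by
      rw [← Real.exp_add]
      exact Real.exp_le_exp.2 (by linarith [big_rpow_le hC (by linarith : 0 ≤ z)])
    rw [Real.exp_add, show 1 / 100 * Real.log x = Real.log x * (1 / 100) by ring,
      ← Real.rpow_def_of_pos hx] at h
    calc z * Real.exp (-(6 * z)) * (x ^ (1 / 100 : ℝ) * Real.exp (C * z ^ (99 / 100 : ℝ)))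
        ≤ z * Real.exp (-(6 * z)) *
            (x ^ (1 / 100 : ℝ) * (Real.exp (C ^ 100) * Real.exp z)) := by gcongr
      _ = Real.exp (C ^ 100) *
            (z * Real.exp (-(6 * z)) * (x ^ (1 / 100 : ℝ) * Real.exp z)) := by ring
      _ ≤ _ := mul_le_mul_of_nonneg_left h (Real.exp_pos _).le
  · have h := hmain 0 (by linarith)
    rwa [Real.exp_zero, mul_one] at h

/-- The height of the levels is absorbed by `exp (-η ℓ / 4)`. -/
theorem big_ell_le (C : ℝ) (hC : 0 ≤ C) :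
    ∃ ell0 : ℝ, ∀ ell : ℝ, ell0 ≤ ell → ∀ z : ℝ, 0 ≤ z → z ≤ 4 + Real.sqrt ell →
      C * z * (1 + Real.log ell) - etaC / 4 * ell ≤ 0 := by
  refine ⟨max 1 ((100 * C / etaC) ^ 4), fun ell hell z hz0 hz => ?_⟩
  have heta : 0 < etaC := by norm_num [etaC]
  have hell1 : 1 ≤ ell := (le_max_left _ _).trans hell
  set w := Real.sqrt (Real.sqrt ell) with hw
  have hw1 : 1 ≤ w := Real.one_le_sqrt.2 (Real.one_le_sqrt.2 hell1)
  have hsq : w ^ 2 = Real.sqrt ell := Real.sq_sqrt (Real.sqrt_nonneg _)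
  have hfour : w ^ 4 = ell := by
    rw [show w ^ 4 = (w ^ 2) ^ 2 by ring, hsq, Real.sq_sqrt (by linarith)]
  have hlog : Real.log ell ≤ 4 * w := by
    rw [← hfour, Real.log_pow]
    push_cast
    linarith [Real.log_le_sub_one_of_pos (by linarith : 0 < w)]
  have hbig : 100 * C / etaC ≤ w := by
    refine le_of_pow_le_pow_left₀ (by norm_num : (4 : ℕ) ≠ 0) (by linarith) ?_
    rw [hfour]
    exact (le_max_right _ _).trans hell
  rw [div_le_iff₀ heta] at hbig
  have hz' : z ≤ 5 * w ^ 2 := by nlinarith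
  have hlog0 : 0 ≤ Real.log ell := Real.log_nonneg hell1
  have h1 : C * z * (1 + Real.log ell) ≤ C * (5 * w ^ 2) * (5 * w) := by gcongr; linarith
  have h2 : C * (5 * w ^ 2) * (5 * w) ≤ etaC / 4 * ell := by
    rw [← hfour]
    nlinarith [pow_nonneg (by linarith : 0 ≤ w) 3,
      mul_le_mul_of_nonneg_right hbig (pow_nonneg (by linarith : 0 ≤ w) 3)]
  linarith

/-- Levels above `1/8`. -/
theorem exists_level_big_le :
    ∃ C ell0 : ℝ, ∀ (ψ : ℕ → ℝ) (S : Finset ℕ) (γ : ℝ) (A : ℤ) (B : ℕ) (ell L : ℝ),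
      Win ψ S γ A B ell L → ell0 ≤ ell → ∀ x : ℝ, 1 / 8 ≤ x → x ≤ Real.exp (Real.sqrt ell) →
      levelSum γ ψ A B S x (2 * x) ≤
        C * levelMass ψ S x (2 * x) +
          C * (mass ψ S + mass ψ S ^ 2) * x ^ (-(1 / 100) : ℝ) := by
  obtain ⟨Cl, hlow⟩ := exists_low_le
  obtain ⟨Cm, hmom⟩ := exists_moment_le 14 (by norm_num)
  obtain ⟨Cw, ellw, hwmom⟩ := exists_wMoment_le 14 (by norm_num)
  set C0 := max Cw 0 with hC0
  obtain ⟨elle, helle⟩ := big_ell_le C0 (le_max_right _ _)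
  refine ⟨max (3 * max Cl 0) (28 * max Cm 0 + C0 * (Real.exp (C0 ^ 100) + 1)),
    max (max ellw elle) 1, ?_⟩
  intro ψ S γ A B ell L hwin hell x hx hxs
  simp only [max_le_iff] at hell
  obtain ⟨⟨hellw, helle'⟩, hell1⟩ := hell
  -- the cut
  set y := Nat.log 4 ⌊8 * x⌋₊ with hy
  have hfl : 1 ≤ ⌊8 * x⌋₊ := Nat.le_floor (by push_cast; linarith)
  have hy1 : (4 : ℝ) ^ y ≤ 8 * x :=
    le_trans (by exact_mod_cast Nat.pow_log_le_self 4 (show ⌊8 * x⌋₊ ≠ 0 by omega))
      (Nat.floor_le (by linarith))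
  have hy2 : 8 * x < (4 : ℝ) ^ (y + 1) :=
    lt_of_lt_of_le (Nat.lt_floor_add_one _)
      (by exact_mod_cast Nat.lt_pow_succ_log_self (show 1 < 4 by norm_num) ⌊8 * x⌋₊)
  have hl4 : 1 ≤ Real.log 4 ∧ Real.log 4 ≤ 2 := by
    rw [show (4 : ℝ) = 2 ^ 2 by norm_num, Real.log_pow]
    have := Real.log_two_gt_d9
    have := Real.log_two_lt_d9
    constructor <;> push_cast <;> linarith
  set z := (y : ℝ) + 1 with hz
  have hz1 : 1 ≤ z := le_add_of_nonneg_left (Nat.cast_nonneg y)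
  have hxz : Real.log x ≤ 2 * z := by
    have h := Real.log_le_log (by linarith : 0 < x) (by linarith : x ≤ (4 : ℝ) ^ (y + 1))
    rw [Real.log_pow] at h
    push_cast at h
    nlinarith
  have hzell : z ≤ 4 + Real.sqrt ell := by
    have h := Real.log_le_log (pow_pos (by norm_num) y) hy1
    rw [Real.log_pow, Real.log_mul (by norm_num) (by linarith)] at h
    have h8 : Real.log 8 ≤ 3 := by
      rw [show (8 : ℝ) = 2 ^ 3 by norm_num, Real.log_pow]
      have := Real.log_two_lt_d9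
      push_cast
      linarith
    have hlx : Real.log x ≤ Real.sqrt ell := (Real.log_le_iff_le_exp (by linarith)).2 hxs
    have : (y : ℝ) ≤ (y : ℝ) * Real.log 4 := le_mul_of_one_le_right (Nat.cast_nonneg y) hl4.1
    linarith
  set u := 2 * (6 * (y + 1) + 1) with hu
  have hu14 : (u : ℝ) ≤ 14 * ((y : ℝ) + 1) := by rw [hu]; push_cast; linarith
  set k := z * Real.exp (-(6 * z)) with hk
  have hk0 : 0 ≤ k := by positivity
  -- nonnegativity on `S`
  let ψ' : ℕ → ℝ := fun q => |ψ q|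
  have hψ' : ∀ q ∈ S, ψ' q = ψ q := fun q hq => abs_of_pos (hwin.psi_pos q hq)
  have hwt : ∀ q ∈ S, wt ψ' q = wt ψ q := fun q hq => by rw [wt, wt, hψ' q hq]
  have hdist : ∀ q ∈ S, ∀ r ∈ S, dist2 ψ' q r = dist2 ψ q r := fun q hq r hr => by
    rw [dist2, dist2, hψ' q hq, hψ' r hr]
  have hmass : mass ψ' S = mass ψ S := Finset.sum_congr rfl hwt
  have hwnn : ∀ q ∈ S, 0 ≤ wt ψ q := fun q hq => hwt q hq ▸ wt_nonneg (fun r => abs_nonneg _) q
  have hmu : 0 ≤ mass ψ S := Finset.sum_nonneg hwnn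
  have hM : 0 ≤ mass ψ S + mass ψ S ^ 2 := by positivity
  -- one pair
  have hpair : ∀ q ∈ S, ∀ r ∈ S.filter (fun r => r ≠ q ∧ x < dist2 ψ q r ∧ dist2 ψ q r ≤ 2 * x),
      ovTerm γ ψ A B q r ≤ 3 * max Cl 0 * (wt ψ q * wt ψ r) +
        k * (28 * (wt ψ q * wt ψ r * hFac y (qd q r * qd r q) ^ u) +
          wt ψ q * wt ψ r / dist2 ψ q r * ∑ n ∈ admSet γ ψ A B q r, wHi y A B q r n ^ u) := by
    intro q hq r hr
    obtain ⟨hrS, hne, hxD, -⟩ := Finset.mem_filter.1 hr
    have hD : 1 / 8 ≤ dist2 ψ q r := by linarith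
    have hD0 : 0 < dist2 ψ q r := by linarith
    have hWW : 0 ≤ wt ψ q * wt ψ r := mul_nonneg (hwnn q hq) (hwnn r hrS)
    have hsum : ∑ n ∈ admSet γ ψ A B q r, pFac B q r * wFac A B q r n ≤
        3 * (max Cl 0 * dist2 ψ q r) + k * (28 * dist2 ψ q r * hFac y (qd q r * qd r q) ^ u +
          ∑ n ∈ admSet γ ψ A B q r, wHi y A B q r n ^ u) := by
      calc ∑ n ∈ admSet γ ψ A B q r, pFac B q r * wFac A B q r n
          ≤ ∑ n ∈ admSet γ ψ A B q r, (3 * (pLo y B q r * wLo y A B q r n) +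
              k * (hFac y (qd q r * qd r q) ^ u + wHi y A B q r n ^ u)) :=
            Finset.sum_le_sum fun n _ => big_split_le y A B q r n
        _ = 3 * ∑ n ∈ admSet γ ψ A B q r, pLo y B q r * wLo y A B q r n +
              k * ((admSet γ ψ A B q r).card * hFac y (qd q r * qd r q) ^ u +
                ∑ n ∈ admSet γ ψ A B q r, wHi y A B q r n ^ u) := by
            rw [Finset.sum_add_distrib, ← Finset.mul_sum _ _ (3 : ℝ), ← Finset.mul_sum _ _ k,
              Finset.sum_add_distrib, Finset.sum_const, nsmul_eq_mul]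
        _ ≤ _ := by
            refine add_le_add (mul_le_mul_of_nonneg_left ?_ (by norm_num))
              (mul_le_mul_of_nonneg_left (add_le_add (mul_le_mul_of_nonneg_right ?_ ?_) le_rfl) hk0)
            · refine (hlow γ ψ A B q r y (hwin.pos_of_mem q hq) (hwin.pos_of_mem r hrS) (Ne.symm hne)
                hwin.coprime hD (hy1.trans (by linarith))).trans ?_
              exact mul_le_mul_of_nonneg_right (le_max_left _ _) hD0.le
            · have h1 : ((admSet γ ψ A B q r).card : ℝ) ≤ 4 * dist2 ψ q r + 3 :=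
                le_trans (by exact_mod_cast Finset.card_filter_le _ _)
                  (card_nearSet_le γ ψ q r hD0.le)
              linarith
            · exact pow_nonneg (le_trans zero_le_one (BilinearAux.one_le_hFac _ _)) u
    calc ovTerm γ ψ A B q r
        ≤ wt ψ q * wt ψ r / dist2 ψ q r *
            (3 * (max Cl 0 * dist2 ψ q r) + k * (28 * dist2 ψ q r * hFac y (qd q r * qd r q) ^ u +
              ∑ n ∈ admSet γ ψ A B q r, wHi y A B q r n ^ u)) :=
          mul_le_mul_of_nonneg_left hsum (div_nonneg hWW hD0.le)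
      _ = _ := by field_simp
  -- the two moments
  have hP : ∑ q ∈ S, ∑ r ∈ S.filter (fun r => r ≠ q ∧ x < dist2 ψ q r ∧ dist2 ψ q r ≤ 2 * x),
      wt ψ q * wt ψ r * hFac y (qd q r * qd r q) ^ u ≤
        max Cm 0 * (mass ψ S + mass ψ S ^ 2) * (2 * x) ^ (993 / 1000 : ℝ) := by
    have h := hmom ψ' S (2 * x) y u hwin.pos_of_mem (fun q => abs_nonneg _) (by linarith) hu14
    rw [hmass] at h
    refine le_trans ?_ (h.trans ?_)
    · refine Finset.sum_le_sum fun q hq => ?_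
      refine le_of_eq_of_le (Finset.sum_congr rfl fun r hr => ?_)
        (Finset.sum_le_sum_of_subset_of_nonneg (fun r hr => ?_) fun r _ _ => ?_)
      · rw [← hwt q hq, ← hwt r (Finset.mem_filter.1 hr).1]
      · obtain ⟨hrS, hne, -, hD2⟩ := Finset.mem_filter.1 hr
        exact Finset.mem_filter.2 ⟨hrS, Ne.symm hne, (hdist q hq r hrS).trans_le hD2⟩
      · exact mul_nonneg (mul_nonneg (wt_nonneg (fun r => abs_nonneg _) q)
          (wt_nonneg (fun r => abs_nonneg _) r))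
          (pow_nonneg (le_trans zero_le_one (BilinearAux.one_le_hFac _ _)) u)
    · refine mul_le_mul_of_nonneg_right (mul_le_mul_of_nonneg_right (le_max_left _ _) hM) ?_
      exact Real.rpow_nonneg (by linarith) _
  have hW : ∑ q ∈ S, ∑ r ∈ S.filter (fun r => r ≠ q ∧ x < dist2 ψ q r ∧ dist2 ψ q r ≤ 2 * x),
      wt ψ q * wt ψ r / dist2 ψ q r * ∑ n ∈ admSet γ ψ A B q r, wHi y A B q r n ^ u ≤
        C0 * (mass ψ S + mass ψ S ^ 2) *
          (x ^ (1 / 100 : ℝ) * Real.exp (C0 * z ^ (99 / 100 : ℝ)) + 1) := by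
    refine (hwmom ψ S γ A B ell L hwin hellw x (by linarith) y u hu14).trans ?_
    have hle : Cw ≤ C0 := le_max_left _ _
    refine mul_le_mul (mul_le_mul_of_nonneg_right hle hM) (add_le_add ?_ ?_) (by positivity)
      (mul_nonneg (le_max_right _ _) hM)
    · exact mul_le_mul_of_nonneg_left (Real.exp_le_exp.2 (mul_le_mul_of_nonneg_right hle
        (Real.rpow_nonneg (by linarith) _))) (Real.rpow_nonneg (by linarith) _)
    · rw [Real.exp_le_one_iff]
      refine le_trans ?_ (helle ell helle' z (by linarith) hzell)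
      have := Real.log_nonneg hell1
      have := mul_le_mul_of_nonneg_right hle (show 0 ≤ z * (1 + Real.log ell) by positivity)
      rw [← hz]
      linarith
  obtain ⟨hn1, hn2, hn3⟩ :=
    big_numeric (le_max_right Cw 0) hz1 (by linarith : 0 < x) hxz
  rw [← hk] at hn1 hn2 hn3
  set X := x ^ (-(1 / 100) : ℝ) with hX
  have hlev : 0 ≤ levelMass ψ S x (2 * x) := Finset.sum_nonneg fun q hq =>
    Finset.sum_nonneg fun r hr => mul_nonneg (hwnn q hq) (hwnn r (Finset.mem_filter.1 hr).1)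
  calc levelSum γ ψ A B S x (2 * x)
      ≤ ∑ q ∈ S, ∑ r ∈ S.filter (fun r => r ≠ q ∧ x < dist2 ψ q r ∧ dist2 ψ q r ≤ 2 * x),
          (3 * max Cl 0 * (wt ψ q * wt ψ r) +
            k * (28 * (wt ψ q * wt ψ r * hFac y (qd q r * qd r q) ^ u) +
              wt ψ q * wt ψ r / dist2 ψ q r * ∑ n ∈ admSet γ ψ A B q r, wHi y A B q r n ^ u)) :=
        Finset.sum_le_sum fun q hq => Finset.sum_le_sum (hpair q hq)
    _ = 3 * max Cl 0 * levelMass ψ S x (2 * x) + k *
          (28 * ∑ q ∈ S, ∑ r ∈ S.filter (fun r => r ≠ q ∧ x < dist2 ψ q r ∧ dist2 ψ q r ≤ 2 * x),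
              wt ψ q * wt ψ r * hFac y (qd q r * qd r q) ^ u +
            ∑ q ∈ S, ∑ r ∈ S.filter (fun r => r ≠ q ∧ x < dist2 ψ q r ∧ dist2 ψ q r ≤ 2 * x),
              wt ψ q * wt ψ r / dist2 ψ q r * ∑ n ∈ admSet γ ψ A B q r, wHi y A B q r n ^ u) := by
        simp only [levelMass, Finset.sum_add_distrib, ← Finset.mul_sum]
    _ ≤ 3 * max Cl 0 * levelMass ψ S x (2 * x) + k *
          (28 * (max Cm 0 * (mass ψ S + mass ψ S ^ 2) * (2 * x) ^ (993 / 1000 : ℝ)) +
            C0 * (mass ψ S + mass ψ S ^ 2) *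
              (x ^ (1 / 100 : ℝ) * Real.exp (C0 * z ^ (99 / 100 : ℝ)) + 1)) :=
        add_le_add le_rfl (mul_le_mul_of_nonneg_left
          (add_le_add (mul_le_mul_of_nonneg_left hP (by norm_num)) hW) hk0)
    _ = 3 * max Cl 0 * levelMass ψ S x (2 * x) + (mass ψ S + mass ψ S ^ 2) *
          (28 * max Cm 0 * (k * (2 * x) ^ (993 / 1000 : ℝ)) +
            C0 * (k * (x ^ (1 / 100 : ℝ) * Real.exp (C0 * z ^ (99 / 100 : ℝ))) + k)) := by ring
    _ ≤ 3 * max Cl 0 * levelMass ψ S x (2 * x) + (mass ψ S + mass ψ S ^ 2) *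
          (28 * max Cm 0 * X + C0 * (Real.exp (C0 ^ 100) * X + X)) := by gcongr
    _ = 3 * max Cl 0 * levelMass ψ S x (2 * x) +
          (28 * max Cm 0 + C0 * (Real.exp (C0 ^ 100) + 1)) *
            (mass ψ S + mass ψ S ^ 2) * X := by ring
    _ ≤ _ := by
        refine add_le_add (mul_le_mul_of_nonneg_right (le_max_left _ _) hlev)
          (mul_le_mul_of_nonneg_right (mul_le_mul_of_nonneg_right (le_max_right _ _) hM) ?_)
        exact Real.rpow_nonneg (by linarith) _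

end Vale.Agent.P028
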