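import Vale.Agent.P028.SameWindow.Defs
import Vale.Agent.P028.SameWindow.Factors
import Vale.Agent.P028.SameWindow.WMoment
import Vale.Agent.P028.Bilinear

noncomputable section

namespace Vale.Agent.P028

open Finset

/-- Below `1/4` there is at most one coincidence. -/
theorem card_admSet_small {γ : ℝ} {ψ : ℕ → ℝ} {A : ℤ} {B q r : ℕ}
    (hD : dist2 ψ q r ≤ 1 / 4) : (admSet γ ψ A B q r).card ≤ 1 := by
  refine card_le_one.2 fun a ha b hb => ?_
  have h1 := abs_lt.1 (mem_filter.1 (mem_filter.1 ha).1).2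
  have h2 := abs_lt.1 (mem_filter.1 (mem_filter.1 hb).1).2
  have e1 : (a : ℝ) < b + 1 := by linarith
  have e2 : (b : ℝ) < a + 1 := by linarith
  norm_cast at e1 e2
  omega

theorem mul_le_add_pow_four_div {a : ℝ} (ha : 0 < a) (P W : ℝ) :
    P * W ≤ a + (P ^ 4 + W ^ 4) / a := by
  have h5 : (P * W) ^ 2 ≤ P ^ 4 + W ^ 4 := by
    nlinarith [sq_nonneg (P ^ 2 - W ^ 2), mul_self_nonneg (P * W)]
  rw [← sub_le_iff_le_add', le_div_iff₀ ha]
  nlinarith [sq_nonneg (P * W - a)]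

theorem factors_eq_hi_zero (A : ℤ) (B q r : ℕ) (n : ℤ) :
    pFac B q r * wFac A B q r n = pHi 0 B q r * wHi 0 A B q r n := by
  obtain ⟨h1, h2, h3, h4⟩ := one_le_factors 0 A B q r n
  have hlo1 : pLo 0 B q r * wLo 0 A B q r n = 1 := by
    refine le_antisymm ?_ (one_le_mul_of_one_le_of_one_le h1 h3)
    simpa using lo_le 0 A B q r n
  rw [pFac_eq_lo_mul_hi 0, wFac_eq_lo_mul_hi 0, mul_mul_mul_comm, hlo1, one_mul]

/-- The exponents of the small levels. -/
theorem small_exponents {ell x : ℝ} (hell : 1 ≤ ell) (hxlo : xFine ell / 2 ≤ x) (hx1 : x ≤ 1) :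
    x ^ (-(8 / 1000) : ℝ) * x ^ (1 / 100 : ℝ) ≤ x ^ (1 / 1000 : ℝ) ∧
      x ^ (-(7 / 1000) : ℝ) / x ^ (-(8 / 1000) : ℝ) = x ^ (1 / 1000 : ℝ) ∧
      x ^ (-(8 / 1000) : ℝ) * Real.exp (-(etaC / 4 * ell)) ≤
        2 * Real.exp (-(etaC / 20 * ell)) := by
  have hη : 0 < etaC := by norm_num [etaC]
  have hxf : 0 < xFine ell := Real.exp_pos _
  have hx : 0 < x := lt_of_lt_of_le (by linarith) hxlo
  refine ⟨?_, ?_, ?_⟩
  · rw [← Real.rpow_add hx]
    exact Real.rpow_le_rpow_of_exponent_ge hx hx1 (by norm_num)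
  · rw [← Real.rpow_sub hx]
    norm_num
  have h1 : x ^ (-(8 / 1000) : ℝ) ≤ (xFine ell / 2) ^ (-(8 / 1000) : ℝ) :=
    Real.rpow_le_rpow_of_nonpos (by linarith) hxlo (by norm_num)
  have h2 : (xFine ell / 2) ^ (-(8 / 1000) : ℝ) ≤ Real.exp (16 / 1000 * etaC * ell) * 2 := by
    rw [Real.div_rpow hxf.le zero_le_two, xFine, ← Real.exp_mul, Real.rpow_neg zero_le_two,
      div_inv_eq_mul]
    refine mul_le_mul (le_of_eq ?_) (Real.rpow_le_self_of_one_le one_le_two (by norm_num))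
      (by positivity) (Real.exp_pos _).le
    congr 1
    ring
  have h3 : Real.exp (16 / 1000 * etaC * ell) * Real.exp (-(etaC / 4 * ell)) ≤
      Real.exp (-(etaC / 20 * ell)) := by
    rw [← Real.exp_add, Real.exp_le_exp]
    nlinarith
  calc x ^ (-(8 / 1000) : ℝ) * Real.exp (-(etaC / 4 * ell)) ≤
      Real.exp (16 / 1000 * etaC * ell) * 2 * Real.exp (-(etaC / 4 * ell)) :=
        mul_le_mul_of_nonneg_right (h1.trans h2) (Real.exp_pos _).le
    _ ≤ _ := by linarith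

/-- The moment bound with the radii only assumed nonnegative on `S`. -/
theorem exists_pMoment_small_le :
    ∃ C : ℝ, 0 ≤ C ∧ ∀ (γ : ℝ) (ψ : ℕ → ℝ) (A : ℤ) (B : ℕ) (S : Finset ℕ) (x : ℝ),
      (∀ q ∈ S, 0 < q) → (∀ q ∈ S, 0 < ψ q) → 0 < x → x ≤ 1 / 8 →
      ∑ q ∈ S, ∑ r ∈ S.filter (fun r => r ≠ q ∧ x < dist2 ψ q r ∧ dist2 ψ q r ≤ 2 * x),
          wt ψ q * wt ψ r / dist2 ψ q r *
            ∑ _n ∈ admSet γ ψ A B q r, pHi 0 B q r ^ 4 ≤
        C * (mass ψ S + mass ψ S ^ 2) * x ^ (-(7 / 1000) : ℝ) := by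
  obtain ⟨C, hC⟩ := exists_moment_le 4 (by norm_num)
  refine ⟨2 * |C|, by positivity, ?_⟩
  intro γ ψ A B S x hpos hψ hx hx8
  set φ : ℕ → ℝ := fun q => if q ∈ S then ψ q else 0 with hφ
  have hφ0 : ∀ q, 0 ≤ φ q := fun q => by
    simp only [hφ]
    split_ifs with h
    · exact (hψ q h).le
    · exact le_rfl
  have eφ : ∀ q ∈ S, φ q = ψ q := fun q h => by simp [hφ, h]
  have ew : ∀ q ∈ S, wt φ q = wt ψ q := fun q h => by simp [wt, eφ q h]
  have em : mass φ S = mass ψ S := sum_congr rfl ew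
  have hw0 : ∀ q ∈ S, 0 ≤ wt ψ q := fun q h =>
    mul_nonneg (by positivity) (hψ q h).le
  have hmass : 0 ≤ mass ψ S + mass ψ S ^ 2 := by
    have : 0 ≤ mass ψ S := sum_nonneg hw0
    positivity
  have hM := hC φ S (2 * x) 0 4 hpos hφ0 (by linarith) (by norm_num)
  rw [em] at hM
  have hsum : ∑ q ∈ S, ∑ r ∈ S.filter (fun r => r ≠ q ∧ x < dist2 ψ q r ∧ dist2 ψ q r ≤ 2 * x),
      wt ψ q * wt ψ r / dist2 ψ q r * ∑ _n ∈ admSet γ ψ A B q r, pHi 0 B q r ^ 4 ≤
      (1 / x) * ∑ q ∈ S, ∑ r ∈ S.filter (fun r => q ≠ r ∧ dist2 φ q r ≤ 2 * x),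
        wt φ q * wt φ r * hFac 0 (qd q r * qd r q) ^ 4 := by
    rw [mul_sum]
    refine sum_le_sum fun q hq => ?_
    rw [mul_sum]
    have hnn : ∀ r ∈ S.filter (fun r => q ≠ r ∧ dist2 φ q r ≤ 2 * x),
        0 ≤ 1 / x * (wt φ q * wt φ r * hFac 0 (qd q r * qd r q) ^ 4) := fun r hr => by
      have h1 := ew q hq ▸ hw0 q hq
      have h2 := ew r (mem_filter.1 hr).1 ▸ hw0 r (mem_filter.1 hr).1
      have h3 : 0 ≤ hFac 0 (qd q r * qd r q) ^ 4 := (show Even 4 by decide).pow_nonneg _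
      exact mul_nonneg (by positivity) (mul_nonneg (mul_nonneg h1 h2) h3)
    refine le_trans (sum_le_sum fun r hr => ?_)
      (sum_le_sum_of_subset_of_nonneg (fun r hr => ?_) fun r hr _ => hnn r hr)
    · obtain ⟨hrS, -, hlo, hhi⟩ := mem_filter.1 hr
      have hFF : 0 ≤ wt ψ q * wt ψ r := mul_nonneg (hw0 q hq) (hw0 r hrS)
      have hh : pHi 0 B q r ^ 4 ≤ hFac 0 (qd q r * qd r q) ^ 4 :=
        pow_le_pow_left₀ (zero_le_one.trans (one_le_factors 0 A B q r 0).2.1)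
          (pHi_le_hFac 0 B q r) 4
      have hcard : ∑ _n ∈ admSet γ ψ A B q r, pHi 0 B q r ^ 4 ≤ hFac 0 (qd q r * qd r q) ^ 4 := by
        rw [sum_const, nsmul_eq_mul]
        have h1 : ((admSet γ ψ A B q r).card : ℝ) ≤ 1 := by
          exact_mod_cast card_admSet_small (γ := γ) (A := A) (B := B) (hhi.trans (by linarith : 2 * x ≤ 1 / 4))
        exact (mul_le_of_le_one_left ((show Even 4 by decide).pow_nonneg _) h1).trans hh
      rw [ew q hq, ew r hrS, div_eq_mul_one_div (wt ψ q * wt ψ r)]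
      calc wt ψ q * wt ψ r * (1 / dist2 ψ q r) * ∑ _n ∈ admSet γ ψ A B q r, pHi 0 B q r ^ 4 ≤
          wt ψ q * wt ψ r * (1 / x) * hFac 0 (qd q r * qd r q) ^ 4 := by
            refine mul_le_mul (mul_le_mul_of_nonneg_left (one_div_le_one_div_of_le hx hlo.le) hFF)
              hcard (sum_nonneg fun _ _ => (show Even 4 by decide).pow_nonneg _) ?_
            exact mul_nonneg hFF (by positivity)
        _ = _ := by ring
    · obtain ⟨hrS, hne, -, hhi⟩ := mem_filter.1 hr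
      refine mem_filter.2 ⟨hrS, Ne.symm hne, ?_⟩
      simpa [dist2, eφ q hq, eφ r hrS] using hhi
  refine hsum.trans ?_
  calc 1 / x * ∑ q ∈ S, ∑ r ∈ S.filter (fun r => q ≠ r ∧ dist2 φ q r ≤ 2 * x),
        wt φ q * wt φ r * hFac 0 (qd q r * qd r q) ^ 4 ≤
      1 / x * (|C| * (mass ψ S + mass ψ S ^ 2) * (2 * x) ^ (993 / 1000 : ℝ)) :=
        mul_le_mul_of_nonneg_left (hM.trans (mul_le_mul_of_nonneg_right
          (mul_le_mul_of_nonneg_right (le_abs_self C) hmass) (by positivity))) (by positivity)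
    _ ≤ 1 / x * (|C| * (mass ψ S + mass ψ S ^ 2) * (2 * x ^ (993 / 1000 : ℝ))) := by
        refine mul_le_mul_of_nonneg_left (mul_le_mul_of_nonneg_left ?_ (by positivity))
          (by positivity)
        rw [Real.mul_rpow zero_le_two hx.le]
        refine mul_le_mul_of_nonneg_right ?_ (by positivity)
        exact Real.rpow_le_self_of_one_le one_le_two (by norm_num)
    _ = 2 * |C| * (mass ψ S + mass ψ S ^ 2) * x ^ (-(7 / 1000) : ℝ) := by
        have e : x ^ (-(7 / 1000) : ℝ) = x ^ (993 / 1000 : ℝ) / x := by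
          rw [show (-(7 / 1000) : ℝ) = 993 / 1000 - 1 by norm_num, Real.rpow_sub hx,
            Real.rpow_one]
        rw [e]
        ring

/-- Levels below `1/8`: Cauchy-Schwarz between the gain and the moments. -/
theorem exists_level_small_le :
    ∃ C ell0 : ℝ, ∀ (ψ : ℕ → ℝ) (S : Finset ℕ) (γ : ℝ) (A : ℤ) (B : ℕ) (ell L : ℝ),
      Win ψ S γ A B ell L → ell0 ≤ ell → ∀ x : ℝ, xFine ell / 2 ≤ x → x ≤ 1 / 8 →
      levelSum γ ψ A B S x (2 * x) ≤
        C * (mass ψ S + mass ψ S ^ 2) *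
          (x ^ (1 / 1000 : ℝ) + Real.exp (-(etaC / 20 * ell))) := by
  obtain ⟨C1, l1, hG⟩ := exists_gain_le
  obtain ⟨C2, l2, hW⟩ := exists_wMoment_le 4 (by norm_num)
  obtain ⟨C3, hC3, hP⟩ := exists_pMoment_small_le
  set E := Real.exp |C2| + 1 with hE
  have hE0 : 0 ≤ E := by positivity
  refine ⟨2 * |C1| + C3 + |C2| * E,
    max (max l1 l2) ((12 * |C2| / etaC) ^ 2 + 1), ?_⟩
  intro ψ S γ A B ell L hwin hell x hxlo hx8
  obtain ⟨hl12, hlC⟩ := max_le_iff.1 hell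
  obtain ⟨hl1, hl2⟩ := max_le_iff.1 hl12
  have hη : 0 < etaC := by norm_num [etaC]
  have hell1 : 1 ≤ ell := le_trans (le_add_of_nonneg_left (sq_nonneg _)) hlC
  have hxf : 0 < xFine ell := Real.exp_pos _
  have hx : 0 < x := lt_of_lt_of_le (by linarith) hxlo
  have hx1 : x ≤ 1 := by linarith
  set μ := mass ψ S + mass ψ S ^ 2 with hμdef
  have hw0 : ∀ q ∈ S, 0 ≤ wt ψ q := fun q h =>
    mul_nonneg (by positivity) (hwin.psi_pos q h).le
  have hμ : 0 ≤ μ := by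
    have : 0 ≤ mass ψ S := sum_nonneg hw0
    positivity
  -- the exponential in the moment of the coincidence factor
  have hexp : Real.exp (C2 * (((0 : ℕ) : ℝ) + 1) * (1 + Real.log ell) - etaC / 4 * ell) ≤ 1 := by
    rw [Real.exp_le_one_iff, Nat.cast_zero, zero_add, mul_one]
    have hlog0 : 0 ≤ Real.log ell := Real.log_nonneg hell1
    have hlog : Real.log ell ≤ 2 * Real.sqrt ell := by
      have h := Real.log_le_self (Real.sqrt_nonneg ell)
      rw [Real.log_sqrt (by linarith)] at h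
      linarith
    have hs1 : 1 ≤ Real.sqrt ell := Real.one_le_sqrt.2 hell1
    have hsC : 12 * |C2| / etaC ≤ Real.sqrt ell := Real.le_sqrt_of_sq_le (by linarith)
    rw [div_le_iff₀ hη] at hsC
    have h1 : C2 * (1 + Real.log ell) ≤ |C2| * (3 * Real.sqrt ell) :=
      mul_le_mul (le_abs_self _) (by linarith) (by linarith) (abs_nonneg _)
    have h2 : |C2| * (3 * Real.sqrt ell) ≤ etaC / 4 * ell := by
      nth_rewrite 2 [← Real.mul_self_sqrt (by linarith : (0 : ℝ) ≤ ell)]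
      nlinarith [Real.sqrt_nonneg ell]
    linarith
  -- the three sums
  set a := x ^ (-(8 / 1000) : ℝ) with ha
  have ha0 : 0 < a := Real.rpow_pos_of_pos hx _
  have hP' := hP γ ψ A B S x hwin.pos_of_mem hwin.psi_pos hx hx8
  have hW' := hW ψ S γ A B ell L hwin hl2 x hx 0 4 (by norm_num)
  have hG' := hG ψ S γ A B ell L hwin hl1 x hx
  have hx7 : 1 ≤ x ^ (-(7 / 1000) : ℝ) :=
    Real.one_le_rpow_of_pos_of_le_one_of_nonpos hx hx1 (by norm_num)
  have hW'' : ∑ q ∈ S, ∑ r ∈ S.filter (fun r => r ≠ q ∧ x < dist2 ψ q r ∧ dist2 ψ q r ≤ 2 * x),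
      wt ψ q * wt ψ r / dist2 ψ q r * ∑ n ∈ admSet γ ψ A B q r, wHi 0 A B q r n ^ 4 ≤
      |C2| * μ * (E * x ^ (-(7 / 1000) : ℝ)) := by
    refine hW'.trans ?_
    have h1 : x ^ (1 / 100 : ℝ) * Real.exp (C2 * (((0 : ℕ) : ℝ) + 1) ^ (99 / 100 : ℝ)) +
        Real.exp (C2 * (((0 : ℕ) : ℝ) + 1) * (1 + Real.log ell) - etaC / 4 * ell) ≤ E := by
      refine add_le_add ?_ hexp
      rw [Nat.cast_zero, zero_add, Real.one_rpow, mul_one]
      calc _ ≤ 1 * Real.exp |C2| := mul_le_mul (Real.rpow_le_one hx.le hx1 (by norm_num))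
            (Real.exp_le_exp.2 (le_abs_self _)) (Real.exp_pos _).le zero_le_one
        _ = _ := one_mul _
    exact mul_le_mul (mul_le_mul_of_nonneg_right (le_abs_self _) hμ)
      (h1.trans (le_mul_of_one_le_right hE0 hx7)) (by positivity) (by positivity)
  have hG'' : enSum γ ψ A B S x (2 * x) ≤
      |C1| * μ * (x ^ (1 / 100 : ℝ) + Real.exp (-(etaC / 4 * ell))) :=
    hG'.trans (mul_le_mul (mul_le_mul_of_nonneg_right (le_abs_self _) hμ)
      (add_le_add (min_le_right _ _) le_rfl) (by positivity) (by positivity))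
  -- the pointwise inequality
  have hsplit : levelSum γ ψ A B S x (2 * x) ≤ a * enSum γ ψ A B S x (2 * x) +
      ((∑ q ∈ S, ∑ r ∈ S.filter (fun r => r ≠ q ∧ x < dist2 ψ q r ∧ dist2 ψ q r ≤ 2 * x),
        wt ψ q * wt ψ r / dist2 ψ q r * ∑ _n ∈ admSet γ ψ A B q r, pHi 0 B q r ^ 4) +
      ∑ q ∈ S, ∑ r ∈ S.filter (fun r => r ≠ q ∧ x < dist2 ψ q r ∧ dist2 ψ q r ≤ 2 * x),
        wt ψ q * wt ψ r / dist2 ψ q r * ∑ n ∈ admSet γ ψ A B q r, wHi 0 A B q r n ^ 4) / a := by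
    rw [levelSum, enSum]
    simp only [mul_sum, add_div, sum_div, ← sum_add_distrib]
    refine sum_le_sum fun q hq => sum_le_sum fun r hr => ?_
    obtain ⟨hrS, -, hlo, -⟩ := mem_filter.1 hr
    have hD : 0 < dist2 ψ q r := hx.trans hlo
    have hFF : 0 ≤ wt ψ q * wt ψ r / dist2 ψ q r :=
      div_nonneg (mul_nonneg (hw0 q hq) (hw0 r hrS)) hD.le
    rw [ovTerm, mul_sum, card_eq_sum_ones, Nat.cast_sum, mul_sum, mul_sum, ← sum_add_distrib]
    refine sum_le_sum fun n _ => ?_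
    rw [factors_eq_hi_zero]
    set P := pHi 0 B q r
    set W := wHi 0 A B q r n
    have key := mul_le_add_pow_four_div ha0 P W
    calc wt ψ q * wt ψ r / dist2 ψ q r * (P * W) ≤
        wt ψ q * wt ψ r / dist2 ψ q r * (a + (P ^ 4 + W ^ 4) / a) :=
          mul_le_mul_of_nonneg_left key hFF
      _ = _ := by
          push_cast
          ring
  -- the exponents
  obtain ⟨e1, e2, e3⟩ := small_exponents hell1 hxlo hx1
  rw [← ha] at e1 e2 e3
  set X := x ^ (1 / 1000 : ℝ)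
  set Y := Real.exp (-(etaC / 20 * ell))
  have hX : 0 ≤ X := (Real.rpow_pos_of_pos hx _).le
  have hY : 0 ≤ Y := (Real.exp_pos _).le
  calc levelSum γ ψ A B S x (2 * x) ≤
      a * (|C1| * μ * (x ^ (1 / 100 : ℝ) + Real.exp (-(etaC / 4 * ell)))) +
        (C3 * μ * x ^ (-(7 / 1000) : ℝ) + |C2| * μ * (E * x ^ (-(7 / 1000) : ℝ))) / a :=
        hsplit.trans (add_le_add (mul_le_mul_of_nonneg_left hG'' ha0.le)
          (div_le_div_of_nonneg_right (add_le_add hP' hW'') ha0.le))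
    _ = |C1| * μ * (a * x ^ (1 / 100 : ℝ) + a * Real.exp (-(etaC / 4 * ell))) +
        (C3 + |C2| * E) * μ * (x ^ (-(7 / 1000) : ℝ) / a) := by ring
    _ ≤ |C1| * μ * (X + 2 * Y) + (C3 + |C2| * E) * μ * X := by
        rw [e2]
        exact add_le_add
          (mul_le_mul_of_nonneg_left (add_le_add e1 e3) (mul_nonneg (abs_nonneg _) hμ)) le_rfl
    _ = |C1| * μ * X + 2 * (|C1| * μ * Y) + (C3 + |C2| * E) * μ * X := by ring
    _ ≤ (2 * (|C1| * μ * X) + 2 * (|C1| * μ * Y)) +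
        ((C3 + |C2| * E) * μ * X + (C3 + |C2| * E) * μ * Y) := by
        have t1 : 0 ≤ |C1| * μ * X := mul_nonneg (mul_nonneg (abs_nonneg _) hμ) hX
        have t2 : 0 ≤ (C3 + |C2| * E) * μ * Y :=
          mul_nonneg (mul_nonneg (add_nonneg hC3 (mul_nonneg (abs_nonneg _) hE0)) hμ) hY
        linarith only [t1, t2]
    _ = _ := by ring

end Vale.Agent.P028
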