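import Vale.Agent.P028.GainDefs

noncomputable section

namespace Vale.Agent.P028

open Finset

/-- The part of `pFac` from the primes `≤ y`. -/
def pLo (y B q r : ℕ) : ℝ :=
  ∏ p ∈ (qd q r * qd r q).primeFactors.filter (fun p => ¬ p ∣ B ∧ p ≤ y), ratio p

/-- The part of `pFac` from the primes `> y`. -/
def pHi (y B q r : ℕ) : ℝ :=
  ∏ p ∈ (qd q r * qd r q).primeFactors.filter (fun p => ¬ p ∣ B ∧ y < p), ratio p

/-- The part of `wFac` from the primes `≤ y`. -/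
def wLo (y : ℕ) (A : ℤ) (B q r : ℕ) (n : ℤ) : ℝ :=
  ∏ p ∈ (Nat.gcd q r).primeFactors.filter
      (fun p => ¬ p ∣ qd q r * qd r q ∧ ¬ p ∣ B ∧ p ≤ y ∧ (p : ℤ) ∣ zform A B q r n), ratio p

/-- The part of `wFac` from the primes `> y`. -/
def wHi (y : ℕ) (A : ℤ) (B q r : ℕ) (n : ℤ) : ℝ :=
  ∏ p ∈ (Nat.gcd q r).primeFactors.filter
      (fun p => ¬ p ∣ qd q r * qd r q ∧ ¬ p ∣ B ∧ y < p ∧ (p : ℤ) ∣ zform A B q r n), ratio p

/-- The bound on the integral of a product of two bumps. -/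
def ovTerm (γ : ℝ) (ψ : ℕ → ℝ) (A : ℤ) (B q r : ℕ) : ℝ :=
  wt ψ q * wt ψ r / dist2 ψ q r * ∑ n ∈ admSet γ ψ A B q r, pFac B q r * wFac A B q r n

/-- The level `lo < D ≤ hi` of the second moment. -/
def levelSum (γ : ℝ) (ψ : ℕ → ℝ) (A : ℤ) (B : ℕ) (S : Finset ℕ) (lo hi : ℝ) : ℝ :=
  ∑ q ∈ S, ∑ r ∈ S.filter (fun r => r ≠ q ∧ lo < dist2 ψ q r ∧ dist2 ψ q r ≤ hi),
    ovTerm γ ψ A B q r

/-- The squared mass inside a level. -/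
def levelMass (ψ : ℕ → ℝ) (S : Finset ℕ) (lo hi : ℝ) : ℝ :=
  ∑ q ∈ S, ∑ r ∈ S.filter (fun r => r ≠ q ∧ lo < dist2 ψ q r ∧ dist2 ψ q r ≤ hi),
    wt ψ q * wt ψ r

end Vale.Agent.P028
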